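import Vale.Agent.P318.TR.Sums

/-!
All tests: the number level in terms of the middle layer.
-/

namespace Vale.Agent.P318.TR

open Finset Vale.Agent.P318.S Vale.Agent.P318.S6 Vale.Agent.P318.GC
open Vale.Agent.P318.NPH hiding crv
open scoped BigOperators

/-- The number level describes the geometry and the component vectors. -/
structure Geo2 {s P : ℕ} {K : Type*} [Field K] [Fintype K] [DecidableEq K] (F : FN s P K)
    (k t : ℕ) (cols : List ℕ) (I : List Eq3) {ι Z : Type*} [Fintype ι] [DecidableEq Z]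
    (r : ι → Fin 3 → Fin cols.length → K) (del : Z → (Fin cols.length → K) → K)
    (zf : Fin cols.length → (Fin cols.length → K) → K)
    (sys : Finset (Z × Z × Z)) (bet : Z × Z × Z → K) (φ : K →+ ZMod 2) : Prop where
  dirs : Lst (dirsN (2 ^ s) P t k cols) (fun i => (yE F (r i) : ℕ))
  c1 : ∀ a b : Fin 2 → K, (cE F (cst1 (K := Fin cols.length) a b) : ℕ) =
      cT1 (2 ^ s) P (F.e (a 0)) (F.e (a 1)) (F.e (b 0)) (F.e (b 1))
  c2 : ∀ (y : Fin 3 → Fin cols.length → K) (γ : K),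
    (cE F (cst2 del zf sys bet γ y) : ℕ) = cT2 (2 ^ s) P k cols I (yE F y) (F.e γ)
  cf : ∀ (b : Fin 3) (γ : K), (cE F (cstE γ (cF b) : Comp (Fin cols.length) → K) : ℕ) =
      F.e γ * (2 ^ s) ^ ((b : ℕ) + 1)
  c0 : ∀ γ : K, (cE F (cstE γ cOne : Comp (Fin cols.length) → K) : ℕ) = F.e γ
  shift : ∀ (b : Fin 3) (y x : Fin 3 → Fin cols.length → K), (yE F (sh b y x) : ℕ) =
      shN (2 ^ s) cols.length b (yE F y) (yE F x)
  phi : ∀ γ, (φ γ).val = (F.e γ : ℕ) % 2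

/-- The list of the weights. -/
def wL (m : Fin 5 → ℕ) : List ℕ := [m 0, m 1, m 2, m 3, m 4]

section

variable {s P : ℕ} {K : Type*} [Field K] [Fintype K] [DecidableEq K] {F : FN s P K}
    {k t : ℕ} {cols : List ℕ} {I : List Eq3} {ι Z : Type*} [Fintype ι] [DecidableEq Z]
    {r : ι → Fin 3 → Fin cols.length → K} {del : Z → (Fin cols.length → K) → K}
    {zf : Fin cols.length → (Fin cols.length → K) → K}
    {sys : Finset (Z × Z × Z)} {bet : Z × Z × Z → K} {φ : K →+ ZMod 2}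
    (G : Geo2 F k t cols I r del zf sys bet φ) (D : ℕ) (m : Fin 5 → ℕ)

include G

theorem Geo2.nd : (dirsN (2 ^ s) P t k cols).length = Fintype.card ι := G.dirs.length

/-- The scale. -/
abbrev sc (s n D nd : ℕ) : ℕ := scN (2 ^ s) n D nd

theorem Geo2.viol (S : ℕ → Bool) :
    (violT S (allT (2 ^ s) P D t k (wL m) cols I) : ℝ) =
      (scN (2 ^ s) cols.length D (Fintype.card ι) : ℝ) *
        violA D φ r del zf sys bet m (sg F S) := by
  rw [allT]
  simp only [violT_append, Nat.cast_add]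
  rw [G.nd, viol0 F G.dirs, viol1 F G.dirs D _ S G.c1,
    viol2 F D _ S k I G.dirs del zf sys bet G.c2]
  have h30 := viol3 F G.dirs D (mu3 (2 ^ s) ((wL m).getD 3 0) cols.length D (Fintype.card ι)) S 0
    (G.cf 0) (G.shift 0)
  have h31 := viol3 F G.dirs D (mu3 (2 ^ s) ((wL m).getD 3 0) cols.length D (Fintype.card ι)) S 1
    (G.cf 1) (G.shift 1)
  have h32 := viol3 F G.dirs D (mu3 (2 ^ s) ((wL m).getD 3 0) cols.length D (Fintype.card ι)) S 2
    (G.cf 2) (G.shift 2)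
  have e0 : ((0 : Fin 3) : ℕ) = 0 := rfl
  have e1 : ((1 : Fin 3) : ℕ) = 1 := rfl
  have e2 : ((2 : Fin 3) : ℕ) = 2 := rfl
  rw [e0] at h30
  rw [e1] at h31
  rw [e2] at h32
  rw [h30, h31, h32, viol4 F G.dirs D _ S G.c0 φ G.phi, violA, Fin.sum_univ_three]
  simp only [mu0, mu1, mu2, mu3, wL, List.getD_cons_zero, List.getD_cons_succ, scN]
  push_cast
  ring

theorem Geo2.quad (S : ℕ → Bool) :
    (quadT S (allT (2 ^ s) P D t k (wL m) cols I) : ℝ) =
      (scN (2 ^ s) cols.length D (Fintype.card ι) : ℝ) *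
        quadA D r del zf sys bet m (sg F S) := by
  rw [allT]
  simp only [quadT_append, Nat.cast_add]
  rw [G.nd, quad0 F G.dirs, quad1 F G.dirs D _ S G.c1,
    quad2 F D _ S k I G.dirs del zf sys bet G.c2]
  have h30 := quad3 F G.dirs D (mu3 (2 ^ s) ((wL m).getD 3 0) cols.length D (Fintype.card ι)) S 0
    (G.cf 0) (G.shift 0)
  have h31 := quad3 F G.dirs D (mu3 (2 ^ s) ((wL m).getD 3 0) cols.length D (Fintype.card ι)) S 1
    (G.cf 1) (G.shift 1)
  have h32 := quad3 F G.dirs D (mu3 (2 ^ s) ((wL m).getD 3 0) cols.length D (Fintype.card ι)) S 2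
    (G.cf 2) (G.shift 2)
  have e0 : ((0 : Fin 3) : ℕ) = 0 := rfl
  have e1 : ((1 : Fin 3) : ℕ) = 1 := rfl
  have e2 : ((2 : Fin 3) : ℕ) = 2 := rfl
  rw [e0] at h30
  rw [e1] at h31
  rw [e2] at h32
  rw [h30, h31, h32, quad4 F G.dirs D _ S G.c0 φ G.phi, quadA, Fin.sum_univ_three]
  simp only [mu0, mu1, mu2, mu3, wL, List.getD_cons_zero, List.getD_cons_succ, scN]
  push_cast
  ring

theorem Geo2.wt (hs : 1 ≤ s) :
    (wT (allT (2 ^ s) P D t k (wL m) cols I) : ℝ) =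
      (scN (2 ^ s) cols.length D (Fintype.card ι) : ℝ) * wA (2 ^ s) m := by
  rw [allT]
  simp only [wT_append, Nat.cast_add]
  have h3 := fun b : Fin 3 => w3 F G.dirs D
    (mu3 (2 ^ s) ((wL m).getD 3 0) cols.length D (Fintype.card ι)) b (G.cf b) (G.shift b)
  have h30 := h3 0
  have h31 := h3 1
  have h32 := h3 2
  have e0 : ((0 : Fin 3) : ℕ) = 0 := rfl
  have e1 : ((1 : Fin 3) : ℕ) = 1 := rfl
  have e2 : ((2 : Fin 3) : ℕ) = 2 := rfl
  rw [e0] at h30
  rw [e1] at h31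
  rw [e2] at h32
  rw [G.nd, w0 F G.dirs, w1 F G.dirs D _ G.c1,
    w2 F D _ k I G.dirs del zf sys bet G.c2, h30, h31, h32, w4 F G.dirs D _ G.c0 φ G.phi, wA]
  have hq : 2 ≤ 2 ^ s := by
    calc 2 = 2 ^ 1 := rfl
      _ ≤ 2 ^ s := Nat.pow_le_pow_right (by norm_num) hs
  obtain ⟨q', hq'⟩ : ∃ q', 2 ^ s = q' + 2 := ⟨2 ^ s - 2, by omega⟩
  have hc : ((2 ^ s : ℕ) : ℝ) = q' + 2 := by rw [hq']; push_cast; ring
  rw [hq']
  have f1 : q' + 2 - 1 = q' + 1 := by omega
  have f2 : 2 * (q' + 1) - 1 = 2 * q' + 1 := by omega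
  have f4 : 4 * (q' + 1) - 1 = 4 * q' + 3 := by omega
  rw [f1, f2, f4]
  simp only [mu0, mu1, mu2, mu3, wL, List.getD_cons_zero, List.getD_cons_succ, scN]
  push_cast
  ring

end

end Vale.Agent.P318.TR
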