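import Vale.Agent.P318.TR.All

/-!
The conditions of the cut end for the tests on numbers.
-/

namespace Vale.Agent.P318.TR

open Finset Vale.Agent.P318.S Vale.Agent.P318.S6 Vale.Agent.P318.GC
open Vale.Agent.P318.NPH hiding crv
open scoped BigOperators

/-- The number of positions. -/
def qN (s n : ℕ) : ℕ := (2 ^ s) ^ (3 * n + (5 + 3 * n))

/-- The number of violated tests of a good assignment. -/
def v1N (s n D nd m1 : ℕ) : ℕ := m1 * (2 ^ s - 1) * (scN (2 ^ s) n D nd / (2 * 2 ^ s))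

section

variable {s P : ℕ} {K : Type*} [Field K] [Fintype K] [DecidableEq K] {F : FN s P K}
    {k t : ℕ} {cols : List ℕ} {I : List Eq3} {ι Z : Type*} [Fintype ι] [DecidableEq Z]
    {r : ι → Fin 3 → Fin cols.length → K} {del : Z → (Fin cols.length → K) → K}
    {zf : Fin cols.length → (Fin cols.length → K) → K}
    {sys : Finset (Z × Z × Z)} {bet : Z × Z × Z → K} {φ : K →+ ZMod 2}
    (G : Geo2 F k t cols I r del zf sys bet φ) (D : ℕ) (m : Fin 5 → ℕ)

theorem nRd_pos {q n D nd : ℕ} (hq : 0 < q) (hnd : 0 < nd) : 0 < nRd q n D nd := by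
  rw [nRd]; positivity

theorem nT0_pos {q n D nd : ℕ} (hq : 0 < q) (hnd : 0 < nd) : 0 < nT0 q n D nd := by
  rw [nT0]; positivity

theorem nT1_pos {q n D nd : ℕ} (hq : 0 < q) (hnd : 0 < nd) : 0 < nT1 q n D nd := by
  have := nRd_pos (n := n) (D := D) hq hnd
  rw [nT1]; positivity

theorem nT2_pos {q n D nd : ℕ} (hq : 0 < q) (hnd : 0 < nd) : 0 < nT2 q n D nd := by
  have := nRd_pos (n := n) (D := D) hq hnd
  rw [nT2]; positivity

theorem nT3_pos {q n D nd : ℕ} (hq : 0 < q) (hnd : 0 < nd) : 0 < nT3 q n D nd := by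
  have := nRd_pos (n := n) (D := D) hq hnd
  rw [nT3]; positivity

theorem scN_pos {q n D nd : ℕ} (hq : 0 < q) (hnd : 0 < nd) : 0 < scN q n D nd := by
  rw [scN]
  exact Nat.mul_pos (Nat.mul_pos (Nat.mul_pos (nT0_pos hq hnd) (nT1_pos hq hnd))
    (nT2_pos hq hnd)) (nT3_pos hq hnd)

theorem dvd_scN {s n D nd : ℕ} (hs : 1 ≤ s) : 2 * 2 ^ s ∣ scN (2 ^ s) n D nd := by
  have h1 : 2 * 2 ^ s ∣ (2 ^ s) ^ 4 := by
    refine ⟨2 ^ (3 * s - 1), ?_⟩
    rw [← pow_mul, mul_assoc, ← pow_add, ← pow_succ']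
    congr 1
    omega
  refine h1.trans ?_
  rw [scN, nT1]
  refine Dvd.dvd.mul_right (Dvd.dvd.mul_right (Dvd.dvd.mul_left ?_ _) _) _
  exact Dvd.dvd.mul_right (dvd_mul_left _ _) _

include G

/-- All conditions on the tests. -/
theorem Geo2.okTs [Nonempty ι] (hs : 2 ≤ s) (hm : ∀ j, 0 < m j) :
    OkTs (qN s cols.length) (4 * (2 ^ s - 1)) (allT (2 ^ s) P D t k (wL m) cols I) := by
  have hq4 : 4 ≤ 2 ^ s := by
    calc 4 = 2 ^ 2 := rfl
      _ ≤ 2 ^ s := Nat.pow_le_pow_right (by norm_num) hs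
  have hqe : 2 ^ s % 2 = 0 := by
    obtain ⟨s', rfl⟩ : ∃ s', s = s' + 1 := ⟨s - 1, by omega⟩
    rw [pow_succ]; omega
  have hq0 : 0 < 2 ^ s := by omega
  have hnd : 0 < Fintype.card ι := Fintype.card_pos
  have p0 := nT0_pos (n := cols.length) (D := D) hq0 hnd
  have p1 := nT1_pos (n := cols.length) (D := D) hq0 hnd
  have p2 := nT2_pos (n := cols.length) (D := D) hq0 hnd
  have p3 := nT3_pos (n := cols.length) (D := D) hq0 hnd
  have m0 := hm 0
  have m1 := hm 1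
  have m2 := hm 2
  have m3 := hm 3
  have m4 := hm 4
  have hix : ∀ x : (Fin 3 → Fin cols.length → K) × (Comp (Fin cols.length) → K),
      xN F x < qN s cols.length := fun x => (xE F x).2
  have g0 : 4 * (2 ^ s - 1) ≤ 2 ^ s * (2 ^ s - 1) := Nat.mul_le_mul_right _ hq4
  have g1 : 4 * (2 ^ s - 1) ≤ 2 * (2 ^ s - 1) * (2 * (2 ^ s - 1) - 1) := by
    calc 4 * (2 ^ s - 1) = 2 * (2 ^ s - 1) * 2 := by ring
      _ ≤ _ := Nat.mul_le_mul_left _ (by omega)
  have g2 : 4 * (2 ^ s - 1) ≤ 4 * (2 ^ s - 1) * (4 * (2 ^ s - 1) - 1) :=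
    Nat.le_mul_of_pos_right _ (by omega)
  have hok : ∀ T ∈ allT (2 ^ s) P D t k (wL m) cols I,
      OkT (qN s cols.length) (4 * (2 ^ s - 1)) T := by
    intro T hT
    rw [allT] at hT
    simp only [G.nd, List.mem_append] at hT
    have q1 : (wL m).getD 1 0 = m 1 := rfl
    have q2 : (wL m).getD 2 0 = m 2 := rfl
    have q3 : (wL m).getD 3 0 = m 3 := rfl
    have q4 : (wL m).getD 4 0 = m 4 := rfl
    have q0 : (wL m).getD 0 0 = m 0 := rfl
    rw [q0, q1, q2, q3, q4] at hT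
    have h3 : ∀ b : Fin 3, T ∈ ts3 (2 ^ s) P D cols.length b
        (mu3 (2 ^ s) (m 3) cols.length D (Fintype.card ι)) (dirsN (2 ^ s) P t k cols) →
        OkT (qN s cols.length) (4 * (2 ^ s - 1)) T := by
      intro b hb
      have hl := ts3_lst F G.dirs D (mu3 (2 ^ s) (m 3) cols.length D (Fintype.card ι)) b
        (G.cf b) (G.shift b)
      refine hl.ok ?_ ?_ ?_ ?_ ?_ hix T hb
      · rw [mu3]; exact Nat.mul_pos m3 (Nat.mul_pos (Nat.mul_pos p0 p1) p2)
      · rw [card_J2 F]; omega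
      · rw [card_J2 F]; omega
      · rw [card_J2 F]
      · rw [card_J2 F]; exact g2
    rcases hT with hT | hT | hT | hT | hT | hT | hT
    · refine (ts0_lst F G.dirs D _).ok ?_ ?_ ?_ ?_ ?_ hix T hT
      · rw [mu0]; exact Nat.mul_pos m0 (Nat.mul_pos (Nat.mul_pos p1 p2) p3)
      · rw [card_K F]; exact hqe
      · rw [card_K F]; omega
      · rw [card_K F]; omega
      · rw [card_K F]; exact g0
    · refine (ts1_lst F G.dirs D _ G.c1).ok ?_ ?_ ?_ ?_ ?_ hix T hT
      · rw [mu1]; exact Nat.mul_pos m1 (Nat.mul_pos (Nat.mul_pos p0 p2) p3)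
      · rw [card_J1 F]; omega
      · rw [card_J1 F]; omega
      · rw [card_J1 F]; omega
      · rw [card_J1 F]; exact g1
    · refine (ts2_lst F D _ k I G.dirs del zf sys bet G.c2).ok ?_ ?_ ?_ ?_ ?_ hix T hT
      · rw [mu2]; exact Nat.mul_pos m2 (Nat.mul_pos (Nat.mul_pos p0 p1) p3)
      · rw [card_J1 F]; omega
      · rw [card_J1 F]; omega
      · rw [card_J1 F]; omega
      · rw [card_J1 F]; exact g1
    · exact h3 0 hT
    · exact h3 1 hT
    · exact h3 2 hT
    · refine (ts4_lst F G.dirs D _ G.c0 φ G.phi).ok ?_ ?_ ?_ ?_ ?_ hix T hT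
      · rw [mu2]; exact Nat.mul_pos m4 (Nat.mul_pos (Nat.mul_pos p0 p1) p3)
      · rw [card_J1 F]; omega
      · rw [card_J1 F]; omega
      · rw [card_J1 F]; omega
      · rw [card_J1 F]; exact g1
  refine ⟨Nat.pow_pos hq0, ?_, hok⟩
  intro hnil
  have hw := G.wt D m (by omega)
  rw [hnil] at hw
  have h1 : (0 : ℝ) < scN (2 ^ s) cols.length D (Fintype.card ι) := by
    exact_mod_cast scN_pos hq0 hnd
  have h2 : 0 < wA (2 ^ s) m := by
    rw [wA]
    have hqR : (4 : ℝ) ≤ ((2 ^ s : ℕ) : ℝ) := by exact_mod_cast hq4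
    have c0 : (0 : ℝ) < m 0 := by exact_mod_cast m0
    have c1 : (0 : ℝ) < m 1 := by exact_mod_cast m1
    have c2 : (0 : ℝ) < m 2 := by exact_mod_cast m2
    have c3 : (0 : ℝ) < m 3 := by exact_mod_cast m3
    have c4 : (0 : ℝ) < m 4 := by exact_mod_cast m4
    have d1 : (0 : ℝ) < ((2 ^ s : ℕ) : ℝ) - 1 := by linarith
    have d2 : (0 : ℝ) < 2 * (((2 ^ s : ℕ) : ℝ) - 1) - 1 := by linarith
    have d3 : (0 : ℝ) < 4 * (((2 ^ s : ℕ) : ℝ) - 1) - 1 := by linarith
    positivity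
  have h3 : wT [] = 0 := rfl
  rw [h3] at hw
  have h4 := mul_pos h1 h2
  simp only [Nat.cast_zero] at hw
  linarith

theorem Geo2.v1_cast (hs : 1 ≤ s) :
    ((v1N s cols.length D (Fintype.card ι) (m 1) : ℕ) : ℝ) =
      (scN (2 ^ s) cols.length D (Fintype.card ι) : ℝ) *
        (m 1 * ((1 / 2 : ℝ) * (1 - 1 / ((2 ^ s : ℕ) : ℝ)))) := by
  have hd := dvd_scN (n := cols.length) (D := D) (nd := Fintype.card ι) hs
  obtain ⟨c, hc⟩ := hd
  have hq0 : 0 < 2 ^ s := Nat.pow_pos (by norm_num)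
  rw [v1N, hc, Nat.mul_div_cancel_left _ (by positivity)]
  have hqR : ((2 ^ s : ℕ) : ℝ) ≠ 0 := by positivity
  rw [Nat.cast_mul, Nat.cast_mul, Nat.cast_sub (by omega : 1 ≤ 2 ^ s), Nat.cast_mul, Nat.cast_mul]
  generalize ((2 ^ s : ℕ) : ℝ) = x at *
  push_cast
  field_simp

/-- Completeness. -/
theorem Geo2.yes (hs : 1 ≤ s)
    (hyes : ∃ σ : (Fin 3 → Fin cols.length → K) → (Comp (Fin cols.length) → K) → ZMod 2, Bal σ ∧
      quadA D r del zf sys bet m σ = wA (2 ^ s) m / 4 ∧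
      violA D φ r del zf sys bet m σ = m 1 * ((1 / 2 : ℝ) * (1 - 1 / ((2 ^ s : ℕ) : ℝ)))) :
    YesT (qN s cols.length) (allT (2 ^ s) P D t k (wL m) cols I)
      (v1N s cols.length D (Fintype.card ι) (m 1)) := by
  classical
  obtain ⟨σ, hbal, hq, hv⟩ := hyes
  let S : ℕ → Bool := fun v => if h : v < qN s cols.length then
    decide (σ ((xE F).symm ⟨v, h⟩).1 ((xE F).symm ⟨v, h⟩).2 = 1) else false
  have hS : sg F S = σ := by
    funext y c
    rw [sg, tab]
    have h1 : xN F (y, c) < qN s cols.length := (xE F (y, c)).2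
    have h2 : S (xN F (y, c)) = decide (σ y c = 1) := by
      simp only [S]
      rw [dif_pos h1]
      have h4 : (xE F).symm ⟨xN F (y, c), h1⟩ = (y, c) := (xE F).symm_apply_apply (y, c)
      rw [h4]
    rw [h2]
    rcases zmod2_cases (σ y c) with h | h
    · rw [h]; simp
    · rw [h]; simp
  refine ⟨S, ?_, ?_, ?_⟩
  · have h1 := cntN_tab (xE F (n := cols.length)) S
    have h2 : ∀ a, ind a = (1 - sgn a) / 2 := fun a => by rw [sgn_eq]; ring
    have h3 : (𝔼 x : (Fin 3 → Fin cols.length → K) × (Comp (Fin cols.length) → K),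
        sgn (tab (fun x => (xE F x : ℕ)) S x)) = 0 := by
      rw [expect_prod]
      refine (expect_congr rfl fun y _ => ?_).trans (by simp : (𝔼 _y : Fin 3 → Fin cols.length → K,
        (0 : ℝ)) = 0)
      have := hbal y
      rw [← hS] at this
      exact this
    have h4 : ∑ x : (Fin 3 → Fin cols.length → K) × (Comp (Fin cols.length) → K),
        sgn (tab (fun x => (xE F x : ℕ)) S x) = 0 := by
      rw [sum_eq_card_mul, h3, mul_zero]
    simp only [h2] at h1
    rw [← sum_div, sum_sub_distrib, h4, sum_const, card_univ, nsmul_eq_mul, mul_one, sub_zero,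
      Fintype.card_congr (xE F (n := cols.length)), Fintype.card_fin] at h1
    have h5 : (2 : ℝ) * (cntN S 0 (qN s cols.length) : ℝ) = (qN s cols.length : ℕ) := by
      have h6 : (cntN S 0 (qN s cols.length) : ℝ) =
        (((2 ^ s) ^ (3 * cols.length + Rn cols.length) : ℕ) : ℝ) / 2 := h1
      rw [h6, qN]
      ring
    exact_mod_cast h5
  · have h1 := G.quad D m S
    have h2 := G.wt D m hs
    rw [hS, hq] at h1
    have h3 : ((4 * quadT S (allT (2 ^ s) P D t k (wL m) cols I) : ℕ) : ℝ) =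
        ((wT (allT (2 ^ s) P D t k (wL m) cols I) : ℕ) : ℝ) := by
      rw [Nat.cast_mul, h1, h2]
      push_cast
      ring
    have h4 : 4 * quadT S (allT (2 ^ s) P D t k (wL m) cols I) =
        wT (allT (2 ^ s) P D t k (wL m) cols I) := by exact_mod_cast h3
    exact h4.le
  · have h1 := G.viol D m S
    rw [hS, hv, ← G.v1_cast D m hs] at h1
    have h2 : violT S (allT (2 ^ s) P D t k (wL m) cols I) =
        v1N s cols.length D (Fintype.card ι) (m 1) := by exact_mod_cast h1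
    exact h2.le

/-- Soundness. -/
theorem Geo2.no (hs : 1 ≤ s) {G0 : ℕ} (hG0 : 0 < G0)
    (hno : ∀ σ : (Fin 3 → Fin cols.length → K) → (Comp (Fin cols.length) → K) → ZMod 2,
      wA (2 ^ s) m * ((1 - mean σ ^ 2) / 4) +
        m 1 * ((1 / 2 : ℝ) * (1 - 1 / ((2 ^ s : ℕ) : ℝ))) + wA (2 ^ s) m / G0 ≤
      quadA D r del zf sys bet m σ + violA D φ r del zf sys bet m σ) :
    NoT G0 (qN s cols.length) (allT (2 ^ s) P D t k (wL m) cols I)
      (v1N s cols.length D (Fintype.card ι) (m 1)) := by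
  intro S
  have h1 := hno (sg F S)
  have hq := G.quad D m S
  have hv := G.viol D m S
  have hw := G.wt D m hs
  have hv1 := G.v1_cast D m hs
  have hQ : 1 ≤ (2 ^ s) ^ (3 * cols.length + Rn cols.length) :=
    Nat.pow_pos (Nat.pow_pos (by norm_num))
  have hn := n1_n0 (xE F (n := cols.length)) hQ S
  have hmean : (𝔼 x : (Fin 3 → Fin cols.length → K) × (Comp (Fin cols.length) → K),
      sgn (tab (fun x => (xE F x : ℕ)) S x)) = mean (sg F (n := cols.length) S) := by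
    rw [expect_prod]; rfl
  rw [hmean] at hn
  have hsc : (0 : ℝ) ≤ (scN (2 ^ s) cols.length D (Fintype.card ι) : ℝ) := Nat.cast_nonneg _
  have hG0R : (0 : ℝ) < G0 := by exact_mod_cast hG0
  have h2 := mul_le_mul_of_nonneg_left h1 hsc
  have hQQ : (qN s cols.length : ℕ) = (2 ^ s) ^ (3 * cols.length + Rn cols.length) := rfl
  rw [hQQ]
  set Q : ℕ := (2 ^ s) ^ (3 * cols.length + Rn cols.length) with hQdef
  set ts := allT (2 ^ s) P D t k (wL m) cols I with hts
  have key : (G0 : ℝ) * ((wT ts : ℝ) * ((cntN S 0 Q : ℝ) * (cntN (fun v => !S v) 0 Q : ℝ)) +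
      (Q : ℝ) ^ 2 * (v1N s cols.length D (Fintype.card ι) (m 1) : ℕ)) + (Q : ℝ) ^ 2 * wT ts ≤
      G0 * (Q : ℝ) ^ 2 * ((quadT S ts : ℝ) + violT S ts) := by
    rw [hn, hq, hv, hw, hv1]
    generalize (scN (2 ^ s) cols.length D (Fintype.card ι) : ℝ) = A at *
    generalize ((1 - mean (sg F (n := cols.length) S) ^ 2) / 4) = B at *
    generalize (m 1 : ℝ) * ((1 / 2 : ℝ) * (1 - 1 / ((2 ^ s : ℕ) : ℝ))) = C at *
    generalize wA (2 ^ s) m = W at *
    generalize quadA D r del zf sys bet m (sg F S) = X at *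
    generalize violA D φ r del zf sys bet m (sg F S) = V at *
    have e1 : (G0 : ℝ) * (Q : ℝ) ^ 2 * (A * (W * B + C + W / G0)) =
        (G0 : ℝ) * (A * W * ((Q : ℝ) ^ 2 * B) + (Q : ℝ) ^ 2 * (A * C)) + (Q : ℝ) ^ 2 * (A * W) := by
      field_simp
    have e2 : (G0 : ℝ) * (Q : ℝ) ^ 2 * (A * (W * B + C + W / G0)) ≤
        (G0 : ℝ) * (Q : ℝ) ^ 2 * (A * (X + V)) :=
      mul_le_mul_of_nonneg_left h2 (by positivity)
    rw [← e1]
    refine e2.trans (le_of_eq ?_)
    ring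
  exact_mod_cast key

end

end Vale.Agent.P318.TR
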