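import Vale.Agent.P318.TR.Tests
import Vale.Agent.P318.S6.Defs
import Vale.Agent.P318.S6.Field

/-!
Numbers of the positions, curves, READs.
-/

namespace Vale.Agent.P318.TR

open Finset Vale.Agent.P318.S Vale.Agent.P318.S6
open Vale.Agent.P318.NPH hiding crv
open scoped BigOperators

/-! ### Lists of tests from sums -/

theorem Lst.of_sum {β Ω : Type*} [Fintype Ω] {l : List β} {F : Ω → β}
    (h : ∀ g : β → ℕ, (l.map g).sum = ∑ i, g (F i)) : Lst l F := by
  classical
  rw [Lst]
  ext b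
  have h1 := h fun c => if c = b then 1 else 0
  have h2 : (l.map fun c => if c = b then 1 else 0).sum = l.count b := by
    clear h h1
    induction l with
    | nil => rfl
    | cons a l ih =>
      rw [List.map_cons, List.sum_cons, ih, List.count_cons]
      by_cases hab : a = b
      · simp [hab, add_comm]
      · simp [hab]
  have h3 : Multiset.count b ((univ : Finset Ω).val.map F) = ∑ i, if F i = b then 1 else 0 := by
    rw [Multiset.count_map, ← Finset.filter_val, Finset.card_val, Finset.card_filter]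
    refine sum_congr rfl fun i _ => ?_
    simp only [eq_comm]
  rw [Multiset.coe_count, h3, ← h2, h1]

/-- The number of coordinates of a component vector. -/
abbrev Rn (n : ℕ) : ℕ := 5 + 3 * n

/-- Numbers of the components. -/
def ce (n : ℕ) : Comp (Fin n) ≃ Fin (Rn n) :=
  ((Equiv.refl (Fin 5)).sumCongr finProdFinEquiv).trans finSumFinEquiv

theorem ce_inl (n : ℕ) (j : Fin 5) : (ce n (Sum.inl j) : ℕ) = j := by
  simp [ce]

theorem ce_inr (n : ℕ) (b : Fin 3) (k : Fin n) : (ce n (Sum.inr (b, k)) : ℕ) = 5 + (k + n * b) := by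
  simp [ce]

section

variable {K : Type*} [Field K] {n : ℕ}

/-- The coordinates of a point of `Y`. -/
def flatY : (Fin 3 → Fin n → K) ≃ₗ[K] (Fin (3 * n) → K) where
  toFun y := fun i => y (finProdFinEquiv.symm i).1 (finProdFinEquiv.symm i).2
  invFun v := fun b j => v (finProdFinEquiv (b, j))
  left_inv y := by funext b j; simp
  right_inv v := by funext i; exact congrArg v (finProdFinEquiv.apply_symm_apply i)
  map_add' _ _ := rfl
  map_smul' _ _ := rfl

/-- The coordinates of a component vector. -/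
def flatC : (Comp (Fin n) → K) ≃ₗ[K] (Fin (Rn n) → K) where
  toFun c := fun i => c ((ce n).symm i)
  invFun v := fun j => v (ce n j)
  left_inv c := by funext j; simp
  right_inv v := by funext i; simp
  map_add' _ _ := rfl
  map_smul' _ _ := rfl

end

section

variable {s P : ℕ} {K : Type*} [Field K] (F : FN s P K) {n : ℕ}

/-- Numbers of the points of `Y`. -/
def yE : (Fin 3 → Fin n → K) ≃ Fin ((2 ^ s) ^ (3 * n)) :=
  (flatY (K := K) (n := n)).toEquiv.trans (F.ix (3 * n))

/-- Numbers of the component vectors. -/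
def cE : (Comp (Fin n) → K) ≃ Fin ((2 ^ s) ^ Rn n) :=
  (flatC (K := K) (n := n)).toEquiv.trans (F.ix (Rn n))

theorem yE_val (y : Fin 3 → Fin n → K) : (yE F y : ℕ) = F.num (flatY y) := F.ix_val _

theorem cE_val (c : Comp (Fin n) → K) : (cE F c : ℕ) = F.num (flatC c) := F.ix_val _

/-- Numbers of the positions. -/
def xE : ((Fin 3 → Fin n → K) × (Comp (Fin n) → K)) ≃ Fin ((2 ^ s) ^ (3 * n + Rn n)) :=
  ((yE F).prodCongr (cE F)).trans
    (((Equiv.prodComm _ _).trans finProdFinEquiv).trans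
      (finCongr (by rw [← pow_add, add_comm])))

theorem xE_val (x : (Fin 3 → Fin n → K) × (Comp (Fin n) → K)) :
    (xE F x : ℕ) = F.num (flatY x.1) + (2 ^ s) ^ (3 * n) * F.num (flatC x.2) := by
  rw [← yE_val, ← cE_val]
  simp [xE]

theorem yE_add (y y' : Fin 3 → Fin n → K) :
    (yE F (y + y') : ℕ) = (yE F y : ℕ) ^^^ (yE F y' : ℕ) := by
  rw [yE_val, yE_val, yE_val, map_add, F.num_add]

theorem cE_add (c c' : Comp (Fin n) → K) :
    (cE F (c + c') : ℕ) = (cE F c : ℕ) ^^^ (cE F c' : ℕ) := by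
  rw [cE_val, cE_val, cE_val, map_add, F.num_add]

theorem yE_line (y r : Fin 3 → Fin n → K) (u : K) :
    (yE F (y + u • r) : ℕ) = (yE F y : ℕ) ^^^ smulN (2 ^ s) P (3 * n) (F.e u) (yE F r) := by
  rw [yE_val, yE_val, yE_val, map_add, map_smul, F.num_add, F.num_smul]

/-! ### Curves -/

theorem evC_map {M : ℕ} (L : List (Fin M → K)) (u : K) :
    evC (2 ^ s) P M (L.map F.num) (F.e u) = F.num (L.foldr (fun v acc => v + u • acc) 0) := by
  induction L with
  | nil => exact (F.num_zero M).symm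
  | cons v L ih =>
    rw [List.map_cons, List.foldr_cons, F.num_add, F.num_smul, ← ih]
    rfl

theorem foldr_ofFn {M d : ℕ} (C : Fin d → Fin M → K) (u : K) :
    (List.ofFn C).foldr (fun v acc => v + u • acc) 0 = ∑ j : Fin d, u ^ (j : ℕ) • C j := by
  induction d with
  | zero => simp
  | succ d ih =>
    rw [List.ofFn_succ, List.foldr_cons, ih, Fin.sum_univ_succ, Fin.val_zero, pow_zero, one_smul,
      smul_sum]
    congr 1
    refine sum_congr rfl fun j _ => ?_
    rw [Fin.val_succ, pow_succ', smul_smul]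

theorem evC_crv {D : ℕ} (C : Fin (D + 1) → Comp (Fin n) → K) (u : K) :
    evC (2 ^ s) P (Rn n) (List.ofFn fun a => (cE F (C a) : ℕ)) (F.e u) = cE F (crv C u) := by
  have h1 : (List.ofFn fun a => (cE F (C a) : ℕ)) = (List.ofFn fun a => flatC (C a)).map F.num := by
    rw [List.map_ofFn]
    rfl
  rw [h1, evC_map, foldr_ofFn, cE_val, crv, map_sum]
  simp only [map_smul]

/-- Numbers of the sequences of component vectors. -/
def sE (d : ℕ) : (Fin d → Comp (Fin n) → K) ≃ Fin (((2 ^ s) ^ Rn n) ^ d) :=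
  ((Equiv.refl (Fin d)).arrowCongr (cE F)).trans finFunctionFinEquiv

theorem sE_dig {d : ℕ} (C : Fin d → Comp (Fin n) → K) (a : Fin d) :
    (sE F d C : ℕ) / ((2 ^ s) ^ Rn n) ^ (a : ℕ) % (2 ^ s) ^ Rn n = cE F (C a) := by
  rw [← finFunctionFinEquiv_symm_apply_val]
  simp [sE]

theorem coefs_eq {d : ℕ} (C : Fin d → Comp (Fin n) → K) :
    coefs ((2 ^ s) ^ Rn n) d (sE F d C) = List.ofFn fun a => (cE F (C a) : ℕ) := by
  rw [coefs]
  refine List.ext_getElem (by simp) fun i h1 h2 => ?_
  rw [List.getElem_map, List.getElem_range, List.getElem_ofFn]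
  rw [List.length_ofFn] at h2
  exact sE_dig F C ⟨i, h2⟩

theorem posN_eq {D : ℕ} (y r : Fin 3 → Fin n → K) (C : Fin (D + 1) → Comp (Fin n) → K)
    (u : K) :
    posN (2 ^ s) P n (yE F y) (yE F r) (List.ofFn fun a => (cE F (C a) : ℕ)) (F.e u) =
      xE F (y + u • r, crv C u) := by
  rw [xE_val, ← yE_val, ← cE_val, yE_line, posN, evC_crv]

/-- The positions of a curve test. -/
theorem t0Pos_lst [Fintype K] {D : ℕ} (y r : Fin 3 → Fin n → K)
    (C : Fin (D + 1) → Comp (Fin n) → K) :
    Lst (t0Pos (2 ^ s) P n D (yE F y) (yE F r) (sE F (D + 1) C))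
      (fun u : K => (xE F (y + u • r, crv C u) : ℕ)) := by
  rw [t0Pos]
  refine ((Lst.range F.e).map _).congr fun u => ?_
  rw [coefs_eq, posN_eq]

/-- The numbers of the nonzero scalars, minus one. -/
def uE : {u : K // u ≠ 0} ≃ Fin (2 ^ s - 1) where
  toFun u := ⟨(F.e u : ℕ) - 1, by
    have h1 := F.e_lt (u : K)
    have h2 : (F.e (u : K) : ℕ) ≠ 0 := fun h => u.2 (F.e_eq_zero.1 h)
    omega⟩
  invFun i := ⟨F.e.symm ⟨i + 1, by omega⟩, by
    intro h
    have := F.e_eq_zero.2 h
    rw [Equiv.apply_symm_apply] at this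
    simp at this⟩
  left_inv u := by
    have h2 : (F.e (u : K) : ℕ) ≠ 0 := fun h => u.2 (F.e_eq_zero.1 h)
    apply Subtype.ext
    apply F.e_inj
    rw [Equiv.apply_symm_apply]
    show (F.e (u : K) : ℕ) - 1 + 1 = F.e u
    omega
  right_inv i := by
    apply Fin.ext
    show (F.e (F.e.symm ⟨i + 1, _⟩) : ℕ) - 1 = i
    rw [Equiv.apply_symm_apply]
    simp

theorem uE_val (u : {u : K // u ≠ 0}) : (uE F u : ℕ) + 1 = F.e (u : K) := by
  have h2 : (F.e (u : K) : ℕ) ≠ 0 := fun h => u.2 (F.e_eq_zero.1 h)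
  show (F.e (u : K) : ℕ) - 1 + 1 = F.e u
  omega

/-- The positions of one half of a READ. -/
theorem halfPos_lst [Fintype K] [DecidableEq K] {D : ℕ} (y r : Fin 3 → Fin n → K)
    (c : Comp (Fin n) → K) (C : Fin D → Comp (Fin n) → K) :
    Lst (halfPos (2 ^ s) P n D (yE F y) (yE F r) (cE F c) (sE F D C))
      (fun u : {u : K // u ≠ 0} => (xE F (y + (u : K) • r,
        crv (Fin.cons c C : Fin (D + 1) → Comp (Fin n) → K) (u : K)) : ℕ)) := by
  rw [halfPos]
  refine ((Lst.range (uE F)).map _).congr fun u => ?_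
  have h1 : ((cE F c : ℕ) :: coefs ((2 ^ s) ^ (5 + 3 * n)) D (sE F D C)) =
      List.ofFn fun a => (cE F ((Fin.cons c C : Fin (D + 1) → Comp (Fin n) → K) a) : ℕ) := by
    rw [coefs_eq, List.ofFn_succ]
    rfl
  rw [h1, uE_val, posN_eq]

end

end Vale.Agent.P318.TR
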