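import Vale.Agent.P318.TR.Read

/-!
The families of tests on numbers.
-/

namespace Vale.Agent.P318.TR

open Finset Vale.Agent.P318.S Vale.Agent.P318.S6 Vale.Agent.P318.GC
open Vale.Agent.P318.NPH hiding crv
open scoped BigOperators

section

variable {s P : ℕ} {K : Type*} [Field K] [Fintype K] [DecidableEq K] (F : FN s P K) {n : ℕ}
  {ι : Type*} [Fintype ι] {r : ι → Fin 3 → Fin n → K} {dirs : List ℕ}

/-- The seeds of a READ are a finite type. -/
instance instFintypeRSeed (D : ℕ) : Fintype (RSeed ι K (Fin n) D) := inferInstance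

/-- Numbers of the positions. -/
def xN (x : (Fin 3 → Fin n → K) × (Comp (Fin n) → K)) : ℕ := xE F x

/-- The curve tests. -/
theorem ts0_lst (hd : Lst dirs (fun i => (yE F (r i) : ℕ))) (D μ : ℕ) :
    LstT (ts0 (2 ^ s) P D n μ dirs) (xN F) μ (fun _ => 0)
      (fun p : (Fin 3 → Fin n → K) × ι × (Fin (D + 1) → Comp (Fin n) → K) =>
        pos0 r p.1 p.2.1 p.2.2) := by
  have h : Lst (ts0 (2 ^ s) P D n μ dirs)
      (fun p : (Fin 3 → Fin n → K) × ι × (Fin (D + 1) → Comp (Fin n) → K) =>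
        (μ, 0, t0Pos (2 ^ s) P n D (yE F p.1) (yE F (r p.2.1)) (sE F (D + 1) p.2.2))) := by
    unfold ts0
    refine Lst.flatMap (Lst.range (yE F)) (G := fun y
      (p : ι × (Fin (D + 1) → Comp (Fin n) → K)) =>
        (μ, 0, t0Pos (2 ^ s) P n D (yE F y) (yE F (r p.1)) (sE F (D + 1) p.2))) fun y => ?_
    refine Lst.flatMap hd (G := fun i (C : Fin (D + 1) → Comp (Fin n) → K) =>
        (μ, 0, t0Pos (2 ^ s) P n D (yE F y) (yE F (r i)) (sE F (D + 1) C))) fun i => ?_
    exact (Lst.range (sE F (D + 1))).map _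
  refine (h.map nf).congr fun p => ?_
  rw [nf, nfT]
  refine Prod.ext rfl (Prod.ext (by simp) ?_)
  exact t0Pos_lst F p.1 (r p.2.1) p.2.2

/-- One READ, from the list. -/
theorem oneRead (hd : Lst dirs (fun i => (yE F (r i) : ℕ))) {D : ℕ} (μ b : ℕ)
    (y : Fin 3 → Fin n → K) (cst : Comp (Fin n) → K) :
    Lst (((readL (2 ^ s) P n D dirs (yE F y) (cE F cst)).map fun ps => (μ, b, ps)).map nf)
      (fun ω : RSeed ι K (Fin n) D => (μ, b, mpos (xN F) (posR r y cst ω))) := by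
  have h := (readL_lst F hd (D := D) y cst).map fun m => (μ, b, m)
  rw [List.map_map] at h ⊢
  exact h

/-- Families with one READ: general seeds. -/
theorem famRead {Θ : Type*} [Fintype Θ] (hd : Lst dirs (fun i => (yE F (r i) : ℕ))) {D : ℕ}
    (μ : ℕ) {L : List (ℕ × ℕ × ℕ)} {yv : Θ → Fin 3 → Fin n → K} {cst : Θ → Comp (Fin n) → K}
    {par : Θ → ZMod 2}
    (hL : Lst L fun θ => ((yE F (yv θ) : ℕ), (cE F (cst θ) : ℕ), (par θ).val)) :
    LstT (L.flatMap fun l => (readL (2 ^ s) P n D dirs l.1 l.2.1).map fun ps => (μ, l.2.2, ps))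
      (xN F) μ (fun p : Θ × RSeed ι K (Fin n) D => par p.1)
      (fun p => posR r (yv p.1) (cst p.1) p.2) := by
  rw [LstT, List.map_flatMap]
  exact Lst.flatMap hL (G := fun θ (ω : RSeed ι K (Fin n) D) =>
    nfT (xN F) μ (par θ) (posR r (yv θ) (cst θ) ω)) fun θ => oneRead F hd μ _ (yv θ) (cst θ)

theorem append_mpos {X J J' : Type*} [Fintype J] [Fintype J'] (ix : X → ℕ) (p : J → X)
    (p' : J' → X) : mpos ix p + mpos ix p' = mpos ix (Sum.elim p p') := by
  rw [mpos, mpos, mpos]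
  have : (univ : Finset (J ⊕ J')).val =
      (univ : Finset J).val.map Sum.inl + (univ : Finset J').val.map Sum.inr := by
    rw [← Finset.univ_disjSum_univ]; rfl
  rw [this, Multiset.map_add, Multiset.map_map, Multiset.map_map]; rfl

/-- Families with two READs. -/
theorem famRead2 {Θ : Type*} [Fintype Θ] (hd : Lst dirs (fun i => (yE F (r i) : ℕ))) {D : ℕ}
    (μ : ℕ) {L : List (ℕ × ℕ × ℕ)} {yv yv' : Θ → Fin 3 → Fin n → K}
    {cst : Θ → Comp (Fin n) → K}
    (hL : Lst L fun θ => ((yE F (yv θ) : ℕ), (yE F (yv' θ) : ℕ), (cE F (cst θ) : ℕ))) :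
    LstT (L.flatMap fun l => (readL (2 ^ s) P n D dirs l.1 l.2.2).flatMap fun ps =>
        (readL (2 ^ s) P n D dirs l.2.1 l.2.2).map fun ps' => (μ, 0, ps ++ ps'))
      (xN F) μ (fun _ : Θ × RSeed ι K (Fin n) D × RSeed ι K (Fin n) D => 0)
      (fun p => posRR r (yv p.1) (yv' p.1) (cst p.1) (cst p.1) p.2.1 p.2.2) := by
  rw [LstT, List.map_flatMap]
  refine Lst.flatMap hL (G := fun θ (p : RSeed ι K (Fin n) D × RSeed ι K (Fin n) D) =>
    nfT (xN F) μ 0 (posRR r (yv θ) (yv' θ) (cst θ) (cst θ) p.1 p.2)) fun θ => ?_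
  dsimp only
  have h1 := readL_lst F hd (D := D) (yv θ) (cst θ)
  have h2 := readL_lst F hd (D := D) (yv' θ) (cst θ)
  have h3 : (((readL (2 ^ s) P n D dirs (yE F (yv θ)) (cE F (cst θ))).flatMap fun ps =>
        (readL (2 ^ s) P n D dirs (yE F (yv' θ)) (cE F (cst θ))).map fun ps' =>
          ((μ, 0, ps ++ ps') : Test)).map nf) =
      ((readL (2 ^ s) P n D dirs (yE F (yv θ)) (cE F (cst θ))).map
        fun l : List ℕ => (l : Multiset ℕ)).flatMap fun m =>
        ((readL (2 ^ s) P n D dirs (yE F (yv' θ)) (cE F (cst θ))).map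
          fun l : List ℕ => (l : Multiset ℕ)).map fun m' => (μ, 0, m + m') := by
    rw [List.map_flatMap, List.flatMap_map]
    congr 1
    funext ps
    rw [List.map_map, List.map_map]
    rfl
  rw [h3]
  refine Lst.flatMap h1 (G := fun ω ω' =>
    nfT (xN F) μ 0 (posRR r (yv θ) (yv' θ) (cst θ) (cst θ) ω ω')) fun ω => ?_
  refine (h2.map _).congr fun ω' => ?_
  rw [nfT]
  refine Prod.ext rfl (Prod.ext (by simp) ?_)
  exact append_mpos (xN F) (posR r (yv θ) (cst θ) ω) (posR r (yv' θ) (cst θ) ω')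

end

end Vale.Agent.P318.TR
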