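import Vale.Agent.P318.TR.Fam

/-!
The families of tests T1 - T4 on numbers.
-/

namespace Vale.Agent.P318.TR

open Finset Vale.Agent.P318.S Vale.Agent.P318.S6 Vale.Agent.P318.GC
open Vale.Agent.P318.NPH hiding crv
open scoped BigOperators

/-- Pairs as functions, in the order of the loops. -/
def abE (Y K : Type*) : Y × (Fin 2 → K) × (Fin 2 → K) ≃ Y × K × K × K × K where
  toFun p := (p.1, p.2.1 0, p.2.1 1, p.2.2 0, p.2.2 1)
  invFun p := (p.1, ![p.2.1, p.2.2.1], ![p.2.2.2.1, p.2.2.2.2])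
  left_inv p := by
    obtain ⟨y, a, b⟩ := p
    refine Prod.ext rfl (Prod.ext ?_ ?_)
    · funext i; fin_cases i <;> rfl
    · funext i; fin_cases i <;> rfl
  right_inv p := rfl

section

variable {s P : ℕ} {K : Type*} [Field K] [Fintype K] [DecidableEq K] (F : FN s P K) {n : ℕ}
  {ι : Type*} [Fintype ι] {r : ι → Fin 3 → Fin n → K} {dirs : List ℕ}

/-- The rank one tests. -/
theorem ts1_lst (hd : Lst dirs (fun i => (yE F (r i) : ℕ))) (D μ : ℕ)
    (hT : ∀ a b : Fin 2 → K, (cE F (cst1 (K := Fin n) a b) : ℕ) =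
      cT1 (2 ^ s) P (F.e (a 0)) (F.e (a 1)) (F.e (b 0)) (F.e (b 1))) :
    LstT (ts1 (2 ^ s) P D n μ dirs) (xN F) μ
      (fun _ : ((Fin 3 → Fin n → K) × (Fin 2 → K) × (Fin 2 → K)) × RSeed ι K (Fin n) D => 0)
      (fun p => posR r p.1.1 (cst1 p.1.2.1 p.1.2.2) p.2) := by
  have hL : Lst ((List.range ((2 ^ s) ^ (3 * n))).flatMap fun y =>
      (List.range (2 ^ s)).flatMap fun a0 => (List.range (2 ^ s)).flatMap fun a1 =>
      (List.range (2 ^ s)).flatMap fun b0 => (List.range (2 ^ s)).map fun b1 =>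
        (y, cT1 (2 ^ s) P a0 a1 b0 b1, 0))
      (fun θ : (Fin 3 → Fin n → K) × (Fin 2 → K) × (Fin 2 → K) =>
        ((yE F θ.1 : ℕ), (cE F (cst1 (K := Fin n) θ.2.1 θ.2.2) : ℕ),
          (0 : ZMod 2).val)) := by
    have h1 : Lst ((List.range ((2 ^ s) ^ (3 * n))).flatMap fun y =>
      (List.range (2 ^ s)).flatMap fun a0 => (List.range (2 ^ s)).flatMap fun a1 =>
      (List.range (2 ^ s)).flatMap fun b0 => (List.range (2 ^ s)).map fun b1 =>
        (y, cT1 (2 ^ s) P a0 a1 b0 b1, 0))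
      (fun θ : (Fin 3 → Fin n → K) × K × K × K × K =>
        ((yE F θ.1 : ℕ), cT1 (2 ^ s) P (F.e θ.2.1) (F.e θ.2.2.1) (F.e θ.2.2.2.1)
          (F.e θ.2.2.2.2), 0)) := by
      refine Lst.flatMap (Lst.range (yE F)) (G := fun y (θ : K × K × K × K) =>
        ((yE F y : ℕ), cT1 (2 ^ s) P (F.e θ.1) (F.e θ.2.1) (F.e θ.2.2.1)
          (F.e θ.2.2.2), 0)) fun y => ?_
      refine Lst.flatMap (Lst.range F.e) (G := fun a0 (θ : K × K × K) =>
        ((yE F y : ℕ), cT1 (2 ^ s) P (F.e a0) (F.e θ.1) (F.e θ.2.1)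
          (F.e θ.2.2), 0)) fun a0 => ?_
      refine Lst.flatMap (Lst.range F.e) (G := fun a1 (θ : K × K) =>
        ((yE F y : ℕ), cT1 (2 ^ s) P (F.e a0) (F.e a1) (F.e θ.1)
          (F.e θ.2), 0)) fun a1 => ?_
      refine Lst.flatMap (Lst.range F.e) (G := fun b0 (b1 : K) =>
        ((yE F y : ℕ), cT1 (2 ^ s) P (F.e a0) (F.e a1) (F.e b0)
          (F.e b1), 0)) fun b0 => ?_
      exact (Lst.range F.e).map _
    refine (h1.equiv (abE (Fin 3 → Fin n → K) K)).congr fun θ => ?_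
    rw [hT]
    rfl
  have h2 := famRead F hd (D := D) μ (yv := fun θ : (Fin 3 → Fin n → K) × (Fin 2 → K) ×
    (Fin 2 → K) => θ.1) (cst := fun θ => cst1 θ.2.1 θ.2.2) (par := fun _ => 0) hL
  have h3 : ts1 (2 ^ s) P D n μ dirs = ((List.range ((2 ^ s) ^ (3 * n))).flatMap fun y =>
      (List.range (2 ^ s)).flatMap fun a0 => (List.range (2 ^ s)).flatMap fun a1 =>
      (List.range (2 ^ s)).flatMap fun b0 => (List.range (2 ^ s)).map fun b1 =>
        (y, cT1 (2 ^ s) P a0 a1 b0 b1, 0)).flatMap fun l =>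
        (readL (2 ^ s) P n D dirs l.1 l.2.1).map fun ps => (μ, l.2.2, ps) := by
    simp only [ts1, List.flatMap_assoc, List.flatMap_map]
  rw [h3]
  exact h2

/-- Tests with one READ, a point and a scalar. -/
theorem tsγ_lst (hd : Lst dirs (fun i => (yE F (r i) : ℕ))) (D μ : ℕ)
    {cst : (Fin 3 → Fin n → K) → K → Comp (Fin n) → K} {cN : ℕ → ℕ → ℕ}
    (hT : ∀ y γ, (cE F (cst y γ) : ℕ) = cN (yE F y) (F.e γ)) {par : K → ZMod 2} {pN : ℕ → ℕ}
    (hp : ∀ γ, (par γ).val = pN (F.e γ)) :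
    LstT ((List.range ((2 ^ s) ^ (3 * n))).flatMap fun y => (List.range (2 ^ s)).flatMap fun γ =>
        (readL (2 ^ s) P n D dirs y (cN y γ)).map fun ps => (μ, pN γ, ps)) (xN F) μ
      (fun p : ((Fin 3 → Fin n → K) × K) × RSeed ι K (Fin n) D => par p.1.2)
      (fun p => posR r p.1.1 (cst p.1.1 p.1.2) p.2) := by
  have hL : Lst ((List.range ((2 ^ s) ^ (3 * n))).flatMap fun y =>
      (List.range (2 ^ s)).map fun γ => (y, cN y γ, pN γ))
      (fun θ : (Fin 3 → Fin n → K) × K =>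
        ((yE F θ.1 : ℕ), (cE F (cst θ.1 θ.2) : ℕ), (par θ.2).val)) := by
    refine Lst.flatMap (Lst.range (yE F)) (G := fun y (γ : K) =>
        ((yE F y : ℕ), (cE F (cst y γ) : ℕ), (par γ).val)) fun y => ?_
    refine ((Lst.range F.e).map _).congr fun γ => ?_
    rw [hT, hp]
  have h2 := famRead F hd (D := D) μ (yv := fun θ : (Fin 3 → Fin n → K) × K => θ.1)
    (cst := fun θ => cst θ.1 θ.2) (par := fun θ => par θ.2) hL
  have h3 : ((List.range ((2 ^ s) ^ (3 * n))).flatMap fun y => (List.range (2 ^ s)).flatMap fun γ =>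
        (readL (2 ^ s) P n D dirs y (cN y γ)).map fun ps => ((μ, pN γ, ps) : Test)) =
      (((List.range ((2 ^ s) ^ (3 * n))).flatMap fun y =>
      (List.range (2 ^ s)).map fun γ => (y, cN y γ, pN γ))).flatMap fun l =>
        (readL (2 ^ s) P n D dirs l.1 l.2.1).map fun ps => (μ, l.2.2, ps) := by
    simp only [List.flatMap_assoc, List.flatMap_map]
  rw [h3]
  exact h2

/-- The comparison tests. -/
theorem ts3_lst (hd : Lst dirs (fun i => (yE F (r i) : ℕ))) (D μ : ℕ) (b : Fin 3)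
    (hE : ∀ γ : K, (cE F (cstE γ (cF b) : Comp (Fin n) → K) : ℕ) =
      F.e γ * (2 ^ s) ^ ((b : ℕ) + 1))
    (hs : ∀ y x : Fin 3 → Fin n → K, (yE F (sh b y x) : ℕ) =
      shN (2 ^ s) n b (yE F y) (yE F x)) :
    LstT (ts3 (2 ^ s) P D n b μ dirs) (xN F) μ
      (fun _ : ((Fin 3 → Fin n → K) × (Fin 3 → Fin n → K) × K) × RSeed ι K (Fin n) D ×
        RSeed ι K (Fin n) D => 0)
      (fun p => posRR r p.1.1 (sh b p.1.1 p.1.2.1) (cstE p.1.2.2 (cF b)) (cstE p.1.2.2 (cF b))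
        p.2.1 p.2.2) := by
  have hL : Lst ((List.range ((2 ^ s) ^ (3 * n))).flatMap fun y =>
      (List.range ((2 ^ s) ^ (3 * n))).flatMap fun x =>
      (List.range (2 ^ s)).map fun γ => (y, shN (2 ^ s) n b y x, γ * (2 ^ s) ^ ((b : ℕ) + 1)))
      (fun θ : (Fin 3 → Fin n → K) × (Fin 3 → Fin n → K) × K =>
        ((yE F θ.1 : ℕ), (yE F (sh b θ.1 θ.2.1) : ℕ),
          (cE F (cstE θ.2.2 (cF b) : Comp (Fin n) → K) : ℕ))) := by
    refine Lst.flatMap (Lst.range (yE F)) (G := fun y (θ : (Fin 3 → Fin n → K) × K) =>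
        ((yE F y : ℕ), (yE F (sh b y θ.1) : ℕ),
          (cE F (cstE θ.2 (cF b) : Comp (Fin n) → K) : ℕ))) fun y => ?_
    refine Lst.flatMap (Lst.range (yE F)) (G := fun x (γ : K) =>
        ((yE F y : ℕ), (yE F (sh b y x) : ℕ),
          (cE F (cstE γ (cF b) : Comp (Fin n) → K) : ℕ))) fun x => ?_
    refine ((Lst.range F.e).map _).congr fun γ => ?_
    rw [hE, hs]
  have h2 := famRead2 F hd (D := D) μ
    (yv := fun θ : (Fin 3 → Fin n → K) × (Fin 3 → Fin n → K) × K => θ.1)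
    (yv' := fun θ => sh b θ.1 θ.2.1) (cst := fun θ => cstE θ.2.2 (cF b)) hL
  have h3 : ts3 (2 ^ s) P D n b μ dirs = ((List.range ((2 ^ s) ^ (3 * n))).flatMap fun y =>
      (List.range ((2 ^ s) ^ (3 * n))).flatMap fun x =>
      (List.range (2 ^ s)).map fun γ => (y, shN (2 ^ s) n b y x,
        γ * (2 ^ s) ^ ((b : ℕ) + 1))).flatMap fun l =>
        (readL (2 ^ s) P n D dirs l.1 l.2.2).flatMap fun ps =>
        (readL (2 ^ s) P n D dirs l.2.1 l.2.2).map fun ps' => (μ, 0, ps ++ ps') := by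
    simp only [ts3, List.flatMap_assoc, List.flatMap_map]
  rw [h3]
  exact h2

end

end Vale.Agent.P318.TR
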