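import Mathlib

/-!
Lists which list a family over a finite type (in some order).
-/

namespace Vale.Agent.P318.TR

open Finset

variable {α β γ Ω Ω' : Type*} [Fintype Ω] [Fintype Ω']

/-- The list consists of the values of the family, in some order. -/
def Lst (l : List β) (F : Ω → β) : Prop := (l : Multiset β) = (univ : Finset Ω).val.map F

theorem Lst.sum_map {M : Type*} [AddCommMonoid M] {l : List β} {F : Ω → β} (h : Lst l F)
    (f : β → M) : (l.map f).sum = ∑ ω, f (F ω) := by
  have h1 : ((l : Multiset β).map f).sum = ∑ ω, f (F ω) := by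
    rw [h, Multiset.map_map]; rfl
  rwa [Multiset.map_coe, Multiset.sum_coe] at h1

theorem Lst.mem_iff {l : List β} {F : Ω → β} (h : Lst l F) {b : β} :
    b ∈ l ↔ ∃ ω, F ω = b := by
  have h1 : b ∈ (l : Multiset β) ↔ b ∈ (univ : Finset Ω).val.map F := by rw [h]
  rw [Multiset.mem_coe] at h1
  rw [h1]
  simp

theorem Lst.length {l : List β} {F : Ω → β} (h : Lst l F) : l.length = Fintype.card Ω := by
  have h1 : Multiset.card (l : Multiset β) = Fintype.card Ω := by
    rw [h, Multiset.card_map]; rfl
  simpa using h1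

theorem Lst.congr {l : List β} {F F' : Ω → β} (h : Lst l F) (h' : ∀ ω, F ω = F' ω) : Lst l F' := by
  rw [Lst, h]
  exact Multiset.map_congr rfl fun ω _ => h' ω

theorem Lst.congr_list {l l' : List β} {F : Ω → β} (h : Lst l F) (h' : l = l') : Lst l' F := by
  rw [← h']; exact h

theorem Lst.map {l : List β} {F : Ω → β} (h : Lst l F) (g : β → γ) :
    Lst (l.map g) (fun ω => g (F ω)) := by
  rw [Lst, ← Multiset.map_coe, h, Multiset.map_map]; rfl

/-- Another index type. -/
theorem Lst.equiv {l : List β} {F : Ω → β} (h : Lst l F) (e : Ω' ≃ Ω) :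
    Lst l (fun ω => F (e ω)) := by
  rw [Lst, h]
  have : (univ : Finset Ω).val = (univ : Finset Ω').val.map e := by
    have h1 : (univ : Finset Ω) = (univ : Finset Ω').map e.toEmbedding := by
      rw [Finset.map_univ_equiv]
    rw [h1]; rfl
  rw [this, Multiset.map_map]; rfl

theorem Lst.finRange (n : ℕ) : Lst (List.finRange n) (fun i : Fin n => i) := by
  rw [Lst, Multiset.map_id']
  rfl

theorem Lst.ofFin {n : ℕ} (F : Fin n → β) : Lst (List.ofFn F) F := by
  rw [Lst]
  rw [List.ofFn_eq_map, ← Multiset.map_coe]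
  congr 1

theorem Lst.range {N : ℕ} (e : Ω ≃ Fin N) : Lst (List.range N) (fun ω => (e ω : ℕ)) := by
  have h1 : Lst (List.range N) (fun i : Fin N => (i : ℕ)) := by
    have := (Lst.finRange N).map (fun i : Fin N => (i : ℕ))
    refine this.congr_list ?_
    simp
  exact h1.equiv e

theorem Lst.getD {l : List β} (d : β) : Lst l (fun i : Fin l.length => l.getD i d) := by
  have h := Lst.ofFin (fun i : Fin l.length => l.getD i d)
  refine h.congr_list ?_
  refine List.ext_getElem (by simp) fun i h1 h2 => ?_
  rw [List.getElem_ofFn]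
  exact List.getD_eq_getElem _ _ h2

theorem Lst.nil [IsEmpty Ω] {F : Ω → β} : Lst [] F := by
  rw [Lst]; simp

theorem Lst.single [Unique Ω] {F : Ω → β} : Lst [F default] F := by
  rw [Lst]; simp

theorem Lst.append {l l' : List β} {F : Ω → β} {F' : Ω' → β} (h : Lst l F) (h' : Lst l' F') :
    Lst (l ++ l') (Sum.elim F F') := by
  rw [Lst, ← Multiset.coe_add, h, h']
  have : (univ : Finset (Ω ⊕ Ω')).val =
      (univ : Finset Ω).val.map Sum.inl + (univ : Finset Ω').val.map Sum.inr := by
    rw [← Finset.univ_disjSum_univ]; rfl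
  rw [this, Multiset.map_add, Multiset.map_map, Multiset.map_map]; rfl

theorem Lst.flatMap {l : List β} {F : Ω → β} (h : Lst l F) {g : β → List γ} {G : Ω → Ω' → γ}
    (hg : ∀ ω, Lst (g (F ω)) (G ω)) :
    Lst (l.flatMap g) (fun p : Ω × Ω' => G p.1 p.2) := by
  rw [Lst]
  have h1 : ((l.flatMap g : List γ) : Multiset γ) = (l : Multiset β).bind fun b => (g b : Multiset γ) :=
    (Multiset.coe_bind l g).symm
  rw [h1, h, Multiset.bind_map]
  have h2 : (univ : Finset (Ω × Ω')).val = (univ : Finset Ω).val ×ˢ (univ : Finset Ω').val := rfl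
  rw [h2]
  have h3 : (univ : Finset Ω).val ×ˢ (univ : Finset Ω').val =
      (univ : Finset Ω).val.bind fun a => (univ : Finset Ω').val.map (Prod.mk a) := rfl
  rw [h3, Multiset.map_bind]
  congr 1
  funext ω
  rw [hg ω, Multiset.map_map]; rfl

/-- Dependent version. -/
theorem Lst.flatMap' {l : List β} {F : Ω → β} (h : Lst l F) {g : β → List γ} {Θ : Ω → Type*}
    [∀ ω, Fintype (Θ ω)] {G : ∀ ω, Θ ω → γ} (hg : ∀ ω, Lst (g (F ω)) (G ω)) :
    Lst (l.flatMap g) (fun p : Σ ω, Θ ω => G p.1 p.2) := by
  rw [Lst]
  have h1 : ((l.flatMap g : List γ) : Multiset γ) = (l : Multiset β).bind fun b => (g b : Multiset γ) :=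
    (Multiset.coe_bind l g).symm
  rw [h1, h, Multiset.bind_map]
  have h3 : (univ : Finset (Σ ω, Θ ω)).val =
      (univ : Finset Ω).val.bind fun a => (univ : Finset (Θ a)).val.map (Sigma.mk a) := rfl
  rw [h3, Multiset.map_bind]
  congr 1
  funext ω
  rw [hg ω, Multiset.map_map]; rfl

/-- Filtering. -/
theorem Lst.filter {l : List β} {F : Ω → β} (h : Lst l F) (p : β → Bool) :
    Lst (l.filter p) (fun ω : {ω // p (F ω) = true} => F ω) := by
  classical
  have h0 : ((l.filter p : List β) : Multiset β) =
      (l : Multiset β).filter fun b => p b = true := by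
    rw [Multiset.filter_coe]
    congr 2
    funext b
    simp
  rw [Lst, h0, h, Multiset.filter_map]
  have h1 : ((univ : Finset Ω).val.filter ((fun b => p b = true) ∘ F)) =
      (univ : Finset {ω // p (F ω) = true}).val.map Subtype.val := by
    have h2 : (univ : Finset Ω).filter (fun ω => p (F ω) = true) =
        (univ : Finset {ω // p (F ω) = true}).map (Function.Embedding.subtype _) := by
      ext ω
      simp
    have h3 := congrArg Finset.val h2
    rw [Finset.filter_val, Finset.map_val] at h3
    exact h3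
  rw [h1, Multiset.map_map]; rfl

/-- Counting. -/
theorem Lst.countP {l : List β} {F : Ω → β} (h : Lst l F) (p : β → Bool) :
    l.countP p = ∑ ω, if p (F ω) = true then 1 else 0 := by
  have h1 := h.sum_map (fun b => if p b = true then 1 else 0)
  rw [← h1]
  induction l with
  | nil => rfl
  | cons a l ih =>
    rw [List.countP_cons, List.map_cons, List.sum_cons]
    clear ih h h1
    induction l with
    | nil => simp
    | cons b l ih2 =>
      rw [List.countP_cons, List.map_cons, List.sum_cons]
      omega

end Vale.Agent.P318.TR
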