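import Vale.Agent.P318.TR.Inst
import Vale.Agent.P318.S6.PTTests
import Vale.Agent.P318.GC.PT

/-!
The numbers of the reduction: bounds and polynomial time.
-/

namespace Vale.Agent.P318.TR

open Vale.Agent.Lib.PolyTime Vale.Agent.P318.NPH Vale.Agent.P318.S6 Vale.Agent.P318.GC

/-- A bound for the multiplicities. -/
def muM (q D n nd : ℕ) (w : List ℕ) : ℕ :=
  mu0 q (w.getD 0 0) n D nd + mu1 q (w.getD 1 0) n D nd + mu2 q (w.getD 2 0) n D nd +
    mu3 q (w.getD 3 0) n D nd + mu2 q (w.getD 4 0) n D nd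

section

variable {q P D n μ k : ℕ} {dirs cols : List ℕ} {I : List Eq3}

theorem mult_ts0 {T : Test} (h : T ∈ ts0 q P D n μ dirs) : T.1 = μ := by
  simp only [ts0, List.mem_flatMap, List.mem_map] at h
  obtain ⟨_, -, _, -, _, -, rfl⟩ := h
  rfl

theorem mult_ts1 {T : Test} (h : T ∈ ts1 q P D n μ dirs) : T.1 = μ := by
  simp only [ts1, List.mem_flatMap, List.mem_map] at h
  obtain ⟨_, -, _, -, _, -, _, -, _, -, _, -, rfl⟩ := h
  rfl

theorem mult_ts2 {T : Test} (h : T ∈ ts2 q P D k μ cols I dirs) : T.1 = μ := by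
  simp only [ts2, List.mem_flatMap, List.mem_map] at h
  obtain ⟨_, -, _, -, _, -, rfl⟩ := h
  rfl

theorem mult_ts3 {b : ℕ} {T : Test} (h : T ∈ ts3 q P D n b μ dirs) : T.1 = μ := by
  simp only [ts3, List.mem_flatMap, List.mem_map] at h
  obtain ⟨_, -, _, -, _, -, _, -, _, -, rfl⟩ := h
  rfl

theorem mult_ts4 {T : Test} (h : T ∈ ts4 q P D n μ dirs) : T.1 = μ := by
  simp only [ts4, List.mem_flatMap, List.mem_map] at h
  obtain ⟨_, -, _, -, _, -, rfl⟩ := h
  rfl

end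

theorem mult_le {q P D t k : ℕ} {w cols : List ℕ} {I : List Eq3} :
    ∀ T ∈ allT q P D t k w cols I,
      T.1 ≤ muM q D cols.length (dirsN q P t k cols).length w := by
  intro T hT
  rw [allT] at hT
  simp only [List.mem_append] at hT
  rw [muM]
  rcases hT with h | h | h | h | h | h | h
  · rw [mult_ts0 h]; omega
  · rw [mult_ts1 h]; omega
  · rw [mult_ts2 h]; omega
  · rw [mult_ts3 h]; omega
  · rw [mult_ts3 h]; omega
  · rw [mult_ts3 h]; omega
  · rw [mult_ts4 h]; omega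

section

variable {A : Set Word} {α : Type*} [Enc α] {q : ℕ} {n nd : α → ℕ} (D : ℕ)

theorem PBd_muM (w : List ℕ) (hqb : PBd (fun a => q ^ n a)) (hndb : PBd nd) :
    PBd (fun a => muM q D (n a) (nd a) w) := by
  unfold muM
  exact ((((PBd_mu0 D (PBd.const _) hqb hndb).add (PBd_mu1 D (PBd.const _) hqb hndb)).add
    (PBd_mu2 D (PBd.const _) hqb hndb)).add (PBd_mu3 D (PBd.const _) hqb hndb)).add
    (PBd_mu2 D (PBd.const _) hqb hndb)

theorem PT_scN (hn : PT A n) (hnb : PBd n) (hnd : PT A nd) :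
    PT A (fun a => scN q (n a) D (nd a)) := by
  unfold scN
  exact (((PT_nT0 D hn hnb hnd).mul (PT_nT1 D hn hnb hnd)).mul (PT_nT2 D hn hnb hnd)).mul
    (PT_nT3 D hn hnb hnd)

theorem PT_v1N (s m1 : ℕ) (hn : PT A n) (hnb : PBd n) (hnd : PT A nd) :
    PT A (fun a => v1N s (n a) D (nd a) m1) := by
  unfold v1N
  exact (PT.const (m1 * (2 ^ s - 1))).mul ((PT_scN D hn hnb hnd).div (PT.const (2 * 2 ^ s)))

theorem PT_qN (s : ℕ) (hn : PT A n) (hnb : PBd n) : PT A (fun a => qN s (n a)) := by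
  unfold qN
  exact PT.pow (PT.const (2 ^ s)) (((PT.const 3).mul hn).add ((PT.const 5).add
    ((PT.const 3).mul hn))) (((PBd.const 3).mul hnb).add ((PBd.const 5).add
    ((PBd.const 3).mul hnb)))

theorem PBd_qN (s : ℕ) (hqb : PBd (fun a => (2 ^ s) ^ n a)) : PBd (fun a => qN s (n a)) := by
  refine ((PBd_Q3 hqb).mul (PBd_QR hqb)).mono fun a => ?_
  rw [qN, pow_add]

end

end Vale.Agent.P318.TR
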