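import Vale.Agent.P318.TR.Sem
import Vale.Agent.P318.TR.MainPT
import Vale.Agent.P318.H110.CodeInst
import Vale.Agent.P318.H110.ParamsPT
import Vale.Agent.P318.H648.SourceNP
import Vale.Agent.P318.H767.Params
import Vale.Agent.P318.GC.Final

/-!
The reduction, from the existence of good codes over one constant field.
-/

namespace Vale.Agent.P318.TR

open Finset Vale.Agent.P318.S Vale.Agent.P318.S6 Vale.Agent.P318.GC Vale.Agent.P318.H767
open Vale.Agent.P318.H110 Vale.Agent.P318.Src Vale.Agent.P333 Vale.Agent.Lib.PolyTime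
open Vale.Agent.P318.NPH hiding crv kOf

section source

variable {K : Type} [Field K] [CharP K 2] {I : List Eq3} {k : ℕ}

/-- A boolean solution gives a solution with one table. -/
theorem solv1_of_bool (hI : (I.map Prod.fst).Nodup) {g : ℕ → Bool}
    (hg : ∀ e ∈ I, ((g e.1.1 && g e.1.2.1) ^^ g e.1.2.2) = e.2) :
    Solv1 (sysA I k) (betA K I k) := by
  refine ⟨fun z => if g (zn z) = true then 1 else 0, ?_⟩
  refine (solv_iff (K := K) hI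
    (fun _ => fun z : Fin k → Bool => if g (zn z) = true then 1 else 0)).2 ?_
  intro e he a b c ha hb hc
  have h := hg e he
  have h2 : (1 : K) + 1 = 0 := CharTwo.add_self_eq_zero 1
  rw [ha, hb, hc, ← h]
  cases g e.1.1 <;> cases g e.1.2.1 <;> cases g e.1.2.2 <;> simp [h2]

/-- A solution gives a solution on numbers. -/
theorem solv_nat (hI : (I.map Prod.fst).Nodup)
    (hlt : ∀ e ∈ I, e.1.1 < 2 ^ k ∧ e.1.2.1 < 2 ^ k ∧ e.1.2.2 < 2 ^ k)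
    (h : Solv (sysA I k) (betA K I k)) :
    ∃ f₁ f₂ f₃ : ℕ → K, ∀ e ∈ I, f₁ e.1.1 * f₂ e.1.2.1 + f₃ e.1.2.2 = if e.2 then 1 else 0 := by
  obtain ⟨f, hf⟩ := h
  have h1 := (solv_iff hI f).1 hf
  refine ⟨fun n => if h : n < 2 ^ k then f 0 (zE k ⟨n, h⟩) else 0,
    fun n => if h : n < 2 ^ k then f 1 (zE k ⟨n, h⟩) else 0,
    fun n => if h : n < 2 ^ k then f 2 (zE k ⟨n, h⟩) else 0, fun e he => ?_⟩
  obtain ⟨l1, l2, l3⟩ := hlt e he
  simp only [dif_pos l1, dif_pos l2, dif_pos l3]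
  refine h1 e he _ _ _ ?_ ?_ ?_ <;> rw [zn, Equiv.symm_apply_apply]

end source

/-- The number of the directions. -/
def ndX (s t c dd N : ℕ) : ℕ :=
  (dirsN (2 ^ s) (findP (2 ^ s)) t (kOf N) (colsI s c dd N)).length

/-- The tests, `N` bounds the indices of the system. -/
def tsX (s t D c dd N : ℕ) (I : List Eq3) : List Test :=
  allT (2 ^ s) (findP (2 ^ s)) D t (kOf N) (wL (wts (2 ^ s))) (colsI s c dd N) I

/-- What the code search provides. -/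
def ColsOK (s c dd e : ℕ) (K : Type) [Field K] (F : FN s (findP (2 ^ s)) K) : Prop :=
  e * e ≤ (colsN (2 ^ s) (findP (2 ^ s)) c e 1 dd).length ∧
    ∃ a : Fin (colsN (2 ^ s) (findP (2 ^ s)) c e 1 dd).length → Fin (e * e) → K,
      (∀ j : Fin (colsN (2 ^ s) (findP (2 ^ s)) c e 1 dd).length,
        F.num (a j) = (colsN (2 ^ s) (findP (2 ^ s)) c e 1 dd).getD j 0) ∧
      H321.Good (1 - 1 / ((dd : ℝ) * dd)) a ∧
      ∀ (hk : e * e ≤ (colsN (2 ^ s) (findP (2 ^ s)) c e 1 dd).length) (i : Fin (e * e)),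
        a (Fin.castLE hk i) = Pi.single i 1

theorem semX {s t D c dd N M : ℕ} (hs : 6 ≤ s) (ht : 1 ≤ t) (h48 : 48 * t ≤ 2 ^ s - 1)
    (hD : D + 2 + 6 * t = 2 ^ s)
    (hθ : (max (1 - 1 / ((dd : ℝ) * dd)) (1 / ((2 : ℝ) ^ s - 1))) ^ t ≤
      1 / (8192 * ((2 : ℝ) ^ s) ^ 5))
    {K : Type} [Field K] [Fintype K] [CharP K 2] (F : FN s (findP (2 ^ s)) K)
    (hc : ColsOK s c dd (eOf N) K F) (hN : N = M + 2 ^ t) {I : List Eq3}
    (hlt : ∀ e ∈ I, e.1.1 < M ∧ e.1.2.1 < M ∧ e.1.2.2 < M) (hnd : (I.map Prod.fst).Nodup) :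
    OkTs (qN s (colsI s c dd N).length) (4 * (2 ^ s - 1)) (tsX s t D c dd N I) ∧
      ((∃ g : ℕ → Bool, ∀ e ∈ I, ((g e.1.1 && g e.1.2.1) ^^ g e.1.2.2) = e.2) →
        YesT (qN s (colsI s c dd N).length) (tsX s t D c dd N I)
          (v1N s (colsI s c dd N).length D (ndX s t c dd N) 1)) ∧
      ((∀ f₁ f₂ f₃ : ℕ → K,
          ¬ ∀ e ∈ I, f₁ e.1.1 * f₂ e.1.2.1 + f₃ e.1.2.2 = if e.2 then 1 else 0) →
        NoT (1024 * (2 ^ s) ^ 5) (qN s (colsI s c dd N).length) (tsX s t D c dd N I)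
          (v1N s (colsI s c dd N).length D (ndX s t c dd N) 1)) := by
  classical
  obtain ⟨c1, a, ha, hgood, hunit⟩ := hc
  have hsz : t < Nat.size N := by
    rw [Nat.lt_size, hN]
    exact Nat.le_add_left _ _
  have hsk := size_lt_kOf N
  have hMk : M < 2 ^ kOf N :=
    lt_of_le_of_lt (by rw [hN]; exact Nat.le_add_right _ _) (lt_two_pow_kOf N)
  have hlt' : ∀ e ∈ I, e.1.1 < 2 ^ kOf N ∧ e.1.2.1 < 2 ^ kOf N ∧ e.1.2.2 < 2 ^ kOf N := by
    intro e he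
    obtain ⟨l1, l2, l3⟩ := hlt e he
    exact ⟨l1.trans hMk, l2.trans hMk, l3.trans hMk⟩
  have hkk : eOf N * eOf N = kOf N := rfl
  have htn : t ≤ (colsN (2 ^ s) (findP (2 ^ s)) c (eOf N) 1 dd).length :=
    (hsz.le.trans hsk.le).trans (hkk ▸ c1)
  obtain ⟨r1, r2, r3⟩ := sem hs ht h48 hD hθ F I ha hgood c1 (hunit c1) htn
  refine ⟨r1, ?_, ?_⟩
  · rintro ⟨g, hg⟩
    exact r2 (solv1_of_bool hnd hg)
  · intro hno
    refine r3 fun hsolv => ?_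
    obtain ⟨f₁, f₂, f₃, hf⟩ := solv_nat hnd hlt' hsolv
    exact hno f₁ f₂ f₃ hf

section PTX

variable {α : Type*} [Enc α] {N : α → ℕ} {I : α → List Eq3}

theorem PT_ndX (s t c dd : ℕ) (hN : PT ∅ N) (hNb : PBd N) :
    PT ∅ (fun r => ndX s t c dd (N r)) :=
  (PT_dirsN (2 ^ s) (findP (2 ^ s)) t (PT_kOf hN) (PBd_kOf hN) (PT_colsI hN hNb s c dd)
    (PBd_q_length hNb s c dd)).length

theorem PBd_ndX (s t c dd : ℕ) (hN : PT ∅ N) (hNb : PBd N) :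
    PBd (fun r => ndX s t c dd (N r)) :=
  PBd.length (PT_dirsN (2 ^ s) (findP (2 ^ s)) t (PT_kOf hN) (PBd_kOf hN)
    (PT_colsI hN hNb s c dd) (PBd_q_length hNb s c dd))

theorem PT_tsX (s t D c dd : ℕ) (hN : PT ∅ N) (hNb : PBd N) (hI : PT ∅ I) :
    PT ∅ (fun r => tsX s t D c dd (N r) (I r)) :=
  PT_allT (Nat.pow_pos (by norm_num)) (findP (2 ^ s)) D t (wL (wts (2 ^ s))) (PT_kOf hN)
    (PBd_kOf hN) (PBd_two_pow_kOf hNb) (PT_colsI hN hNb s c dd) (PBd_q_length hNb s c dd) hI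

theorem PT_QX (s c dd : ℕ) (hN : PT ∅ N) (hNb : PBd N) :
    PT ∅ (fun r => qN s (colsI s c dd (N r)).length) :=
  PT_qN s (PT_colsI hN hNb s c dd).length (PBd_length_colsI hN s c dd)

theorem PBd_QX (s c dd : ℕ) (hNb : PBd N) :
    PBd (fun r => qN s (colsI s c dd (N r)).length) :=
  PBd_qN s (PBd_q_length hNb s c dd)

theorem PT_vX (s t D c dd : ℕ) (hN : PT ∅ N) (hNb : PBd N) :
    PT ∅ (fun r => v1N s (colsI s c dd (N r)).length D (ndX s t c dd (N r)) 1) :=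
  PT_v1N D s 1 (PT_colsI hN hNb s c dd).length (PBd_length_colsI hN s c dd)
    (PT_ndX s t c dd hN hNb)

theorem PBd_mX (s t D c dd : ℕ) (hN : PT ∅ N) (hNb : PBd N) :
    PBd (fun r => muM (2 ^ s) D (colsI s c dd (N r)).length (ndX s t c dd (N r))
      (wL (wts (2 ^ s)))) :=
  PBd_muM D _ (PBd_q_length hNb s c dd) (PBd_ndX s t c dd hN hNb)

end PTX

theorem testRedX {s t D c dd : ℕ} (hs : 6 ≤ s) (ht : 1 ≤ t) (h48 : 48 * t ≤ 2 ^ s - 1)
    (hD : D + 2 + 6 * t = 2 ^ s)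
    (hθ : (max (1 - 1 / ((dd : ℝ) * dd)) (1 / ((2 : ℝ) ^ s - 1))) ^ t ≤
      1 / (8192 * ((2 : ℝ) ^ s) ^ 5))
    {K : Type} [Field K] [Fintype K] [CharP K 2] (F : FN s (findP (2 ^ s)) K)
    (hc : ∀ e, 1 ≤ e → ColsOK s c dd e K F) {L : Set (List Bool)} (hL : L ∈ classNP) :
    TestRed (1024 * (2 ^ s) ^ 5) L := by
  obtain ⟨Φ, hΦ, hI, hx⟩ := np_sys hL
  -- the number of the indices
  have hNPT : PT ∅ (fun r : Raw => sizeC (Φ r.w) + 2 ^ t) := (PT_sizeC hΦ).add (PT.const _)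
  have hNb : PBd (fun r : Raw => sizeC (Φ r.w) + 2 ^ t) := (PBd_sizeC hΦ).add (PBd.const _)
  refine ⟨fun x => tsX s t D c dd (sizeC (Φ x) + 2 ^ t) (sysC (Φ x)),
    fun x => qN s (colsI s c dd (sizeC (Φ x) + 2 ^ t)).length, fun _ => 4 * (2 ^ s - 1),
    fun x => v1N s (colsI s c dd (sizeC (Φ x) + 2 ^ t)).length D
      (ndX s t c dd (sizeC (Φ x) + 2 ^ t)) 1,
    fun x => muM (2 ^ s) D (colsI s c dd (sizeC (Φ x) + 2 ^ t)).length
      (ndX s t c dd (sizeC (Φ x) + 2 ^ t)) (wL (wts (2 ^ s))),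
    PT_tsX s t D c dd hNPT hNb hI, PT_QX s c dd hNPT hNb, PBd_QX s c dd hNb,
    PT.const _, PBd.const _, PT_vX s t D c dd hNPT hNb,
    PBd_mX s t D c dd hNPT hNb, fun x => mult_le, fun x => ?_⟩
  obtain ⟨hlt, hnd', hyes, hno⟩ := hx x
  obtain ⟨r1, r2, r3⟩ := semX hs ht h48 hD hθ F (hc _ (one_le_eOf _)) rfl hlt hnd'
  exact ⟨r1, fun hxL => r2 (hyes hxL), fun hxL => r3 (hno hxL K)⟩

/-- **The reduction.** -/
theorem exists_testRed {F0 : Type} [Field F0] [Fintype F0] {s0 : ℕ} (hs0 : 1 ≤ s0)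
    (hF0 : Fintype.card F0 = 2 ^ s0) {θ : ℝ} (hθ : θ < 1) {c : ℕ}
    (hcode : ∀ k, 1 ≤ k → ∃ n ≤ c * k, ∃ a : Fin n → Fin k → F0, H321.Good θ a) :
    ∃ G0 : ℕ, 1 ≤ G0 ∧ ∀ L ∈ classNP, TestRed G0 L := by
  obtain ⟨dd, hdd, hcols⟩ := cols_good hF0 hθ hcode
  have hθ' : 1 - 1 / ((dd : ℝ) * dd) < 1 := by
    have : (0 : ℝ) < dd := by exact_mod_cast hdd
    have : 0 < 1 / ((dd : ℝ) * dd) := by positivity
    linarith
  obtain ⟨s, t, hs0s, hs6, hs, ht, h48, hlam⟩ :=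
    exists_params (1 - 1 / ((dd : ℝ) * dd)) hθ' s0 6 hs0
  obtain ⟨D, hD⟩ : ∃ D, D + 2 + 6 * t = 2 ^ s := ⟨2 ^ s - 2 - 6 * t, by omega⟩
  have hq1 : 0 < 2 ^ s := by positivity
  -- the field
  have hfin : Finite (GaloisField 2 s) := inferInstance
  let ft : Fintype (GaloisField 2 s) := Fintype.ofFinite _
  have hcard : Fintype.card (GaloisField 2 s) = 2 ^ s := by
    rw [← Nat.card_eq_fintype_card]
    exact GaloisField.card 2 s (by omega)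
  obtain ⟨F⟩ := exists_FN s hs (GaloisField 2 s) hcard
  have hcolsOK : ∀ e, 1 ≤ e → ColsOK s c dd e (GaloisField 2 s) F := by
    intro e he
    obtain ⟨c1, -, -, -, h⟩ := hcols s hs0s hs (GaloisField 2 s) F e he
    exact ⟨c1, h⟩
  exact ⟨1024 * (2 ^ s) ^ 5, Nat.mul_pos (by norm_num) (Nat.pow_pos hq1), fun L hL =>
    testRedX hs6 ht h48 hD hlam F hcolsOK hL⟩

/-- **The final theorem from the existence of codes.** -/
theorem noPTAS_of_code {F0 : Type} [Field F0] [Fintype F0] {s0 : ℕ} (hs0 : 1 ≤ s0)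
    (hF0 : Fintype.card F0 = 2 ^ s0) {θ : ℝ} (hθ : θ < 1) {c : ℕ}
    (hcode : ∀ k, 1 ≤ k → ∃ n ≤ c * k, ∃ a : Fin n → Fin k → F0, H321.Good θ a) : NoPTAS := by
  obtain ⟨G0, hG0, h⟩ := exists_testRed hs0 hF0 hθ hcode
  exact noPTAS_of_testRed hG0 h

end Vale.Agent.P318.TR
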