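import Vale.Agent.P318.TR.Main
import Vale.Agent.P318.AG.Good

/-!
The final theorem.
-/

namespace Vale.Agent.P318.TR

open Vale.Agent.P318.GC

/-- Approximating uniform sparsest cut within some fixed factor larger than one is NP-hard. -/
theorem noPTAS : NoPTAS := by
  have hfin : Finite (GaloisField 2 6) := inferInstance
  let ft : Fintype (GaloisField 2 6) := Fintype.ofFinite _
  have hcard : Fintype.card (GaloisField 2 6) = 2 ^ 6 := by
    rw [← Nat.card_eq_fintype_card]
    exact GaloisField.card 2 6 (by norm_num)
  refine noPTAS_of_code (F0 := GaloisField 2 6) (s0 := 6) (by norm_num) hcard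
    (θ := 5 / ((8 : ℕ) - 1 : ℝ)) (c := (8 - 1) * 8 * 8) (by norm_num) fun k hk => ?_
  exact AG.exists_good (k := GaloisField 2 6) (a := 3) (q := 8) le_rfl (by norm_num)
    (by rw [hcard]; norm_num) k hk

end Vale.Agent.P318.TR
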