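import Vale.Agent.P318.TR.Pos

/-!
The READs on numbers.
-/

namespace Vale.Agent.P318.TR

open Finset Vale.Agent.P318.S Vale.Agent.P318.S6
open Vale.Agent.P318.NPH hiding crv
open scoped BigOperators

/-- Two copies. -/
def twoE (U : Type*) : Fin 2 × U ≃ U ⊕ U where
  toFun p := if p.1 = 0 then Sum.inl p.2 else Sum.inr p.2
  invFun := Sum.elim (fun u => (0, u)) (fun u => (1, u))
  left_inv p := by
    obtain ⟨a, u⟩ := p
    fin_cases a <;> simp
  right_inv p := by rcases p with u | u <;> simp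

/-- The seeds of a READ, in the order of the loops. -/
def seedE (ι F K : Type*) (D : ℕ) : RSeed ι F K D ≃
    (Comp K → F) × ι × ι × (Fin D → Comp K → F) × (Fin D → Comp K → F) where
  toFun ω := (ω.2.2, ω.1 0, ω.1 1, ω.2.1 0, ω.2.1 1)
  invFun p := (![p.2.1, p.2.2.1], ![p.2.2.2.1, p.2.2.2.2], p.1)
  left_inv ω := by
    obtain ⟨i, C, c⟩ := ω
    refine Prod.ext ?_ (Prod.ext ?_ rfl)
    · funext a; fin_cases a <;> rfl
    · funext a; fin_cases a <;> rfl
  right_inv p := rfl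

section

variable {s P : ℕ} {K : Type*} [Field K] [Fintype K] [DecidableEq K] (F : FN s P K) {n : ℕ}
  {ι : Type*} [Fintype ι] {r : ι → Fin 3 → Fin n → K} {dirs : List ℕ}

theorem readL_lst0 (hd : Lst dirs (fun i => (yE F (r i) : ℕ))) (D Y cst : ℕ) :
    Lst (readL (2 ^ s) P n D dirs Y cst)
      (fun p : (Comp (Fin n) → K) × ι × ι × (Fin D → Comp (Fin n) → K) ×
          (Fin D → Comp (Fin n) → K) =>
        halfPos (2 ^ s) P n D Y (yE F (r p.2.1)) (cst ^^^ cE F p.1) (sE F D p.2.2.2.1) ++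
        halfPos (2 ^ s) P n D Y (yE F (r p.2.2.1)) (cE F p.1) (sE F D p.2.2.2.2)) := by
  unfold readL
  refine Lst.flatMap (Lst.range (cE F)) (G := fun c (p : ι × ι × (Fin D → Comp (Fin n) → K) ×
          (Fin D → Comp (Fin n) → K)) =>
        halfPos (2 ^ s) P n D Y (yE F (r p.1)) (cst ^^^ cE F c) (sE F D p.2.2.1) ++
        halfPos (2 ^ s) P n D Y (yE F (r p.2.1)) (cE F c) (sE F D p.2.2.2)) fun c => ?_
  refine Lst.flatMap hd (G := fun i (p : ι × (Fin D → Comp (Fin n) → K) ×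
          (Fin D → Comp (Fin n) → K)) =>
        halfPos (2 ^ s) P n D Y (yE F (r i)) (cst ^^^ cE F c) (sE F D p.2.1) ++
        halfPos (2 ^ s) P n D Y (yE F (r p.1)) (cE F c) (sE F D p.2.2)) fun i => ?_
  refine Lst.flatMap hd (G := fun i' (p : (Fin D → Comp (Fin n) → K) ×
          (Fin D → Comp (Fin n) → K)) =>
        halfPos (2 ^ s) P n D Y (yE F (r i)) (cst ^^^ cE F c) (sE F D p.1) ++
        halfPos (2 ^ s) P n D Y (yE F (r i')) (cE F c) (sE F D p.2)) fun i' => ?_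
  refine Lst.flatMap (Lst.range (sE F D)) (G := fun C (C' : Fin D → Comp (Fin n) → K) =>
        halfPos (2 ^ s) P n D Y (yE F (r i)) (cst ^^^ cE F c) (sE F D C) ++
        halfPos (2 ^ s) P n D Y (yE F (r i')) (cE F c) (sE F D C')) fun C => ?_
  exact (Lst.range (sE F D)).map _

/-- The multiset of the numbers of the positions. -/
def mpos {X J : Type*} [Fintype J] (ix : X → ℕ) (pos : J → X) : Multiset ℕ :=
  (univ : Finset J).val.map fun j => ix (pos j)

theorem half_half {D : ℕ} (y : Fin 3 → Fin n → K) (cst : Comp (Fin n) → K)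
    (ω : RSeed ι K (Fin n) D) :
    ((halfPos (2 ^ s) P n D (yE F y) (yE F (r (ω.1 0))) ((cE F cst : ℕ) ^^^ cE F ω.2.2)
        (sE F D (ω.2.1 0)) ++
      halfPos (2 ^ s) P n D (yE F y) (yE F (r (ω.1 1))) (cE F ω.2.2) (sE F D (ω.2.1 1))
        : List ℕ) : Multiset ℕ) =
      mpos (fun x => (xE F x : ℕ)) (posR r y cst ω) := by
  have h1 := halfPos_lst F y (r (ω.1 0)) (cst + ω.2.2) (ω.2.1 0)
  rw [cE_add] at h1
  have h2 := (h1.append (halfPos_lst F y (r (ω.1 1)) ω.2.2 (ω.2.1 1))).equiv (twoE _)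
  refine h2.trans ?_
  rw [mpos]
  refine Multiset.map_congr rfl fun p _ => ?_
  obtain ⟨a, u⟩ := p
  fin_cases a
  · rfl
  · rfl

/-- The READs at a point. -/
theorem readL_lst (hd : Lst dirs (fun i => (yE F (r i) : ℕ))) {D : ℕ} (y : Fin 3 → Fin n → K)
    (cst : Comp (Fin n) → K) :
    Lst ((readL (2 ^ s) P n D dirs (yE F y) (cE F cst)).map fun l : List ℕ => (l : Multiset ℕ))
      (fun ω : RSeed ι K (Fin n) D => mpos (fun x => (xE F x : ℕ)) (posR r y cst ω)) := by
  refine (((readL_lst0 F hd D (yE F y) (cE F cst)).map fun l : List ℕ => (l : Multiset ℕ)).equiv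
    (seedE ι K (Fin n) D)).congr fun ω => ?_
  exact half_half F y cst ω

end

end Vale.Agent.P318.TR
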