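import Vale.Agent.P318.S6.Geo2
import Vale.Agent.P318.H340.GeoInst
import Vale.Agent.P318.H767.MidYes
import Vale.Agent.P318.H767.MidNo
import Vale.Agent.P318.TR.Inst

/-!
One instance: the tests of a system over a good code.
-/

namespace Vale.Agent.P318.TR

open Finset Vale.Agent.P318.S Vale.Agent.P318.S6 Vale.Agent.P318.GC Vale.Agent.P318.H767
open Vale.Agent.P318.NPH hiding crv
open scoped BigOperators

theorem wts_pos {q : ℕ} (hq : 1 ≤ q) (j : Fin 5) : 0 < wts q j := by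
  have h : 0 < 160 * q ^ 2 := by positivity
  fin_cases j
  · exact h
  all_goals norm_num [wts]

theorem sem {s t D : ℕ} {θ : ℝ} (hs : 6 ≤ s) (ht : 1 ≤ t) (h48 : 48 * t ≤ 2 ^ s - 1)
    (hD : D + 2 + 6 * t = 2 ^ s)
    (hθ : (max θ (1 / ((2 : ℝ) ^ s - 1))) ^ t ≤ 1 / (8192 * ((2 : ℝ) ^ s) ^ 5))
    {K : Type} [Field K] [Fintype K] [DecidableEq K] [CharP K 2] {P : ℕ} (F : FN s P K) {k : ℕ}
    {cols : List ℕ} (I : List Eq3) {a : Fin cols.length → Fin k → K}
    (ha : ∀ j : Fin cols.length, F.num (a j) = cols.getD j 0) (hgood : H321.Good θ a)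
    (hk : k ≤ cols.length) (hunit : ∀ i, a (Fin.castLE hk i) = Pi.single i 1)
    (htn : t ≤ cols.length) :
    OkTs (qN s cols.length) (4 * (2 ^ s - 1))
        (allT (2 ^ s) P D t k (wL (wts (2 ^ s))) cols I) ∧
      (Solv1 (sysA I k) (betA K I k) →
        YesT (qN s cols.length) (allT (2 ^ s) P D t k (wL (wts (2 ^ s))) cols I)
          (v1N s cols.length D (dirsN (2 ^ s) P t k cols).length 1)) ∧
      (¬ Solv (sysA I k) (betA K I k) →
        NoT (1024 * (2 ^ s) ^ 5) (qN s cols.length)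
          (allT (2 ^ s) P D t k (wL (wts (2 ^ s))) cols I)
          (v1N s cols.length D (dirsN (2 ^ s) P t k cols).length 1)) := by
  classical
  have hcard : Fintype.card K = 2 ^ s := by
    rw [Fintype.card_congr F.e, Fintype.card_fin]
  have h64 : 64 ≤ 2 ^ s := by
    calc 64 = 2 ^ 6 := by norm_num
      _ ≤ 2 ^ s := Nat.pow_le_pow_right (by norm_num) hs
  have hcR : ((Fintype.card K : ℕ) : ℝ) = (2 : ℝ) ^ s := by rw [hcard]; push_cast; rfl
  have hlB : H591.lamB K θ t ≤ 1 / (8192 * ((2 : ℝ) ^ s) ^ 5) := by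
    rw [H591.lamB, hcR]
    exact hθ
  have hqR : (64 : ℝ) ≤ (2 : ℝ) ^ s := by exact_mod_cast h64
  have hq5 : (1 : ℝ) ≤ ((2 : ℝ) ^ s) ^ 5 := one_le_pow₀ (by linarith)
  have hl4 : H591.lamB K θ t ≤ 1 / 4 := by
    refine hlB.trans ?_
    apply one_div_le_one_div_of_le (by norm_num)
    linarith
  have hl0 := H591.lamB_pos (F := K) θ t
  have hn : 0 < cols.length := by omega
  have : Nonempty (Fin cols.length) := ⟨⟨0, hn⟩⟩
  have hbix : Nonempty (H591.BIx (LinearMap.ker (H591.pim a)) t) :=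
    H591.nonempty_bix (H591.hit_ker hgood) (by simpa using htn) hl4
  have hG := geoOK_of_good a hgood (Fin.castLE hk) (Fin.castLE_injective hk) hunit t ht htn hl4
  have G2 := geo2 F ha hk I t
  have hnd := Geo2.nd G2
  have hw1 : wts (2 ^ s) 1 = 1 := rfl
  refine ⟨Geo2.okTs G2 D (wts (2 ^ s)) (by omega) (wts_pos (by omega)), fun hyes => ?_,
    fun hno => ?_⟩
  · have h := mid_yes (phi F) (phi_ne_zero F) hcard hG (D := D) (by omega) (by omega)
      (sysA I k) (betA K I k) hyes (wts (2 ^ s))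
    have h2 := Geo2.yes G2 D (wts (2 ^ s)) (by omega) h
    rw [hnd]
    rw [hw1] at h2
    exact h2
  · have hl : 6 * H591.lamB K θ t * ((1024 * (2 ^ s) ^ 5 : ℕ) : ℝ) ≤ 1 := by
      push_cast
      have h1 : (0 : ℝ) < ((2 : ℝ) ^ s) ^ 5 := by positivity
      calc 6 * H591.lamB K θ t * (1024 * ((2 : ℝ) ^ s) ^ 5)
          ≤ 6 * (1 / (8192 * ((2 : ℝ) ^ s) ^ 5)) * (1024 * ((2 : ℝ) ^ s) ^ 5) := by gcongr
        _ = 6 * 1024 / 8192 := by field_simp
        _ ≤ 1 := by norm_num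
    have h2 := Geo2.no G2 D (wts (2 ^ s)) (by omega) (G0 := 1024 * (2 ^ s) ^ 5)
      (by positivity) (fun σ => mid_no_explicit (phi F) (phi_ne_zero F) h64 hcard
        (d := 6 * t) hD le_rfl (by omega) (by omega) (by positivity) hl hG
        (sysA I k) (betA K I k) hno σ)
    rw [hnd]
    rw [hw1] at h2
    exact h2

end Vale.Agent.P318.TR
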