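import Vale.Agent.P318.TR.Fam2

/-!
Sums over the tests on numbers are the expectations of the middle layer.
-/

namespace Vale.Agent.P318.TR

open Finset Vale.Agent.P318.S Vale.Agent.P318.S6 Vale.Agent.P318.GC
open Vale.Agent.P318.NPH hiding crv
open scoped BigOperators

/-! ### Expectations over products -/

theorem expect_prod {A B : Type*} [Fintype A] [Fintype B] (f : A × B → ℝ) :
    𝔼 p, f p = 𝔼 a, 𝔼 b, f (a, b) := by
  rw [← Finset.expect_product]
  rfl

theorem sum_eq_card_mul {A : Type*} [Fintype A] (f : A → ℝ) :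
    ∑ a, f a = (Fintype.card A : ℝ) * 𝔼 a, f a := by
  rw [← Fintype.card_smul_expect, nsmul_eq_mul]

section

variable {s P : ℕ} {K : Type*} [Field K] [Fintype K] [DecidableEq K] (F : FN s P K) {n : ℕ}

/-- The table of a set of vertices. -/
def sg (S : ℕ → Bool) (y : Fin 3 → Fin n → K) (c : Comp (Fin n) → K) : ZMod 2 :=
  tab (xN F) S (y, c)

section gen

variable {Ω J : Type*} [Fintype Ω] [Fintype J] {ts : List Test} {μ : ℕ} {par : Ω → ZMod 2}
  {pos : Ω → J → (Fin 3 → Fin n → K) × (Comp (Fin n) → K)}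

theorem LstT.violE (h : LstT ts (xN F) μ par pos) (S : ℕ → Bool) :
    (GC.violT S ts : ℝ) = ((μ * Fintype.card Ω : ℕ) : ℝ) *
      𝔼 ω, ind (∑ j, sg F S (pos ω j).1 (pos ω j).2 + par ω) := by
  rw [h.violT S, sum_eq_card_mul]
  push_cast
  rw [mul_assoc]
  rfl

theorem LstT.quadE (h : LstT ts (xN F) μ par pos) (S : ℕ → Bool) :
    (GC.quadT S ts : ℝ) = ((μ * Fintype.card Ω : ℕ) : ℝ) *
      𝔼 ω, qd (sg F S) (pos ω) := by
  rw [h.quadT S, sum_eq_card_mul]
  push_cast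
  rw [mul_assoc]
  rfl

theorem LstT.wE (h : LstT ts (xN F) μ par pos) :
    GC.wT ts = (μ * Fintype.card Ω) * (Fintype.card J * (Fintype.card J - 1)) := by
  rw [h.wT]; ring

end gen

/-! ### Numbers of elements -/

include F

theorem card_K : Fintype.card K = 2 ^ s := by
  rw [Fintype.card_congr F.e, Fintype.card_fin]

theorem card_Y : Fintype.card (Fin 3 → Fin n → K) = (2 ^ s) ^ (3 * n) := by
  rw [Fintype.card_congr (yE F), Fintype.card_fin]

theorem card_C : Fintype.card (Comp (Fin n) → K) = (2 ^ s) ^ (5 + 3 * n) := by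
  rw [Fintype.card_congr (cE F), Fintype.card_fin]

theorem card_seq (d : ℕ) :
    Fintype.card (Fin d → Comp (Fin n) → K) = ((2 ^ s) ^ (5 + 3 * n)) ^ d := by
  rw [Fintype.card_congr (sE F d), Fintype.card_fin]

theorem card_U : Fintype.card {u : K // u ≠ 0} = 2 ^ s - 1 := by
  rw [Fintype.card_congr (uE F), Fintype.card_fin]

theorem card_J1 : Fintype.card (Fin 2 × {u : K // u ≠ 0}) = 2 * (2 ^ s - 1) := by
  rw [Fintype.card_prod, card_U F, Fintype.card_fin]

theorem card_J2 : Fintype.card ((Fin 2 × {u : K // u ≠ 0}) ⊕ (Fin 2 × {u : K // u ≠ 0})) =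
    4 * (2 ^ s - 1) := by
  rw [Fintype.card_sum, card_J1 F]; ring

theorem card_RSeed {ι : Type*} [Fintype ι] (D : ℕ) :
    Fintype.card (RSeed ι K (Fin n) D) = nRd (2 ^ s) n D (Fintype.card ι) := by
  rw [Fintype.card_congr (seedE ι K (Fin n) D)]
  simp only [Fintype.card_prod, card_C F, card_seq F, nRd]
  ring

end

section

variable {s P : ℕ} {K : Type*} [Field K] [Fintype K] [DecidableEq K] (F : FN s P K) {n : ℕ}
  {ι : Type*} [Fintype ι] {r : ι → Fin 3 → Fin n → K} {dirs : List ℕ}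
  (hd : Lst dirs (fun i => (yE F (r i) : ℕ))) (D μ : ℕ) (S : ℕ → Bool)

/-! ### T0 -/

include hd in
theorem viol0 : (violT S (ts0 (2 ^ s) P D n μ dirs) : ℝ) =
    ((μ * nT0 (2 ^ s) n D (Fintype.card ι) : ℕ) : ℝ) * eps K D r (sg F S) := by
  rw [(ts0_lst F hd D μ).violE F S]
  congr 2
  · rw [Fintype.card_prod, Fintype.card_prod, card_Y F, card_seq F, nT0]
    ring
  · simp only [expect_prod]
    rw [Finset.expect_comm]
    rw [eps]
    refine expect_congr rfl fun i _ => ?_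
    rw [epsDir]
    refine expect_congr rfl fun y _ => ?_
    rw [epsAt]
    refine expect_congr rfl fun C _ => ?_
    rw [bad, S.tsum, add_zero]
    rfl

include hd in
theorem quad0 : (quadT S (ts0 (2 ^ s) P D n μ dirs) : ℝ) =
    ((μ * nT0 (2 ^ s) n D (Fintype.card ι) : ℕ) : ℝ) * Q0 D r (sg F S) := by
  rw [(ts0_lst F hd D μ).quadE F S]
  congr 2
  · rw [Fintype.card_prod, Fintype.card_prod, card_Y F, card_seq F, nT0]
    ring
  · simp only [expect_prod]
    rw [Finset.expect_comm]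
    rfl

include hd in
theorem w0 : wT (ts0 (2 ^ s) P D n μ dirs) =
    (μ * nT0 (2 ^ s) n D (Fintype.card ι)) * (2 ^ s * (2 ^ s - 1)) := by
  rw [(ts0_lst F hd D μ).wE F, card_K F]
  congr 2
  rw [Fintype.card_prod, Fintype.card_prod, card_Y F, card_seq F, nT0]
  ring

/-! ### T1 -/

variable (hT1 : ∀ a b : Fin 2 → K, (cE F (cst1 (K := Fin n) a b) : ℕ) =
      cT1 (2 ^ s) P (F.e (a 0)) (F.e (a 1)) (F.e (b 0)) (F.e (b 1)))

include F in
theorem card_T1 : Fintype.card (((Fin 3 → Fin n → K) × (Fin 2 → K) × (Fin 2 → K)) ×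
    RSeed ι K (Fin n) D) = nT1 (2 ^ s) n D (Fintype.card ι) := by
  rw [Fintype.card_prod, card_RSeed F, Fintype.card_prod, Fintype.card_prod, card_Y F,
    Fintype.card_fun, card_K F, Fintype.card_fin, nT1]
  ring

include hd hT1 in
theorem viol1 : (violT S (ts1 (2 ^ s) P D n μ dirs) : ℝ) =
    ((μ * nT1 (2 ^ s) n D (Fintype.card ι) : ℕ) : ℝ) * V1 D r (sg F S) := by
  rw [(ts1_lst F hd D μ hT1).violE F S, card_T1 F]
  congr 1
  rw [V1]
  simp only [expect_prod (A := (Fin 3 → Fin n → K) × (Fin 2 → K) × (Fin 2 → K)),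
    expect_prod (A := Fin 3 → Fin n → K), expect_prod (A := Fin 2 → K), add_zero]
  rfl

include hd hT1 in
theorem quad1 : (quadT S (ts1 (2 ^ s) P D n μ dirs) : ℝ) =
    ((μ * nT1 (2 ^ s) n D (Fintype.card ι) : ℕ) : ℝ) * Q1 D r (sg F S) := by
  rw [(ts1_lst F hd D μ hT1).quadE F S, card_T1 F]
  congr 1
  rw [Q1]
  simp only [expect_prod (A := (Fin 3 → Fin n → K) × (Fin 2 → K) × (Fin 2 → K)),
    expect_prod (A := Fin 3 → Fin n → K), expect_prod (A := Fin 2 → K)]

include hd hT1 in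
theorem w1 : wT (ts1 (2 ^ s) P D n μ dirs) =
    (μ * nT1 (2 ^ s) n D (Fintype.card ι)) * (2 * (2 ^ s - 1) * (2 * (2 ^ s - 1) - 1)) := by
  rw [(ts1_lst F hd D μ hT1).wE F, card_T1 F, card_J1 F]

/-! ### T2 -/

section T2

variable {Z : Type*} [DecidableEq Z] (k : ℕ) {cols : List ℕ} (I : List Eq3)
  {ι' : Type*} [Fintype ι'] {r' : ι' → Fin 3 → Fin cols.length → K} {dirs' : List ℕ}
  (hd' : Lst dirs' (fun i => (yE F (r' i) : ℕ)))
  (del : Z → (Fin cols.length → K) → K) (zf : Fin cols.length → (Fin cols.length → K) → K)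
  (sys : Finset (Z × Z × Z)) (bet : Z × Z × Z → K)
  (hT2 : ∀ (y : Fin 3 → Fin cols.length → K) (γ : K),
    (cE F (cst2 del zf sys bet γ y) : ℕ) = cT2 (2 ^ s) P k cols I (yE F y) (F.e γ))

include F in
theorem card_T2 : Fintype.card (((Fin 3 → Fin n → K) × K) × RSeed ι K (Fin n) D) =
    nT2 (2 ^ s) n D (Fintype.card ι) := by
  rw [Fintype.card_prod, card_RSeed F, Fintype.card_prod, card_Y F, card_K F, nT2]

include hd' hT2 in
theorem ts2_lst : LstT (ts2 (2 ^ s) P D k μ cols I dirs') (xN F) μ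
      (fun _ : ((Fin 3 → Fin cols.length → K) × K) × RSeed ι' K (Fin cols.length) D => 0)
      (fun p => posR r' p.1.1 (cst2 del zf sys bet p.1.2 p.1.1) p.2) :=
  tsγ_lst F hd' D μ (cst := fun y γ => cst2 del zf sys bet γ y)
    (cN := fun y γ => cT2 (2 ^ s) P k cols I y γ) hT2 (par := fun _ => 0) (pN := fun _ => 0)
    (fun _ => rfl)

include hd' hT2 in
theorem viol2 : (violT S (ts2 (2 ^ s) P D k μ cols I dirs') : ℝ) =
    ((μ * nT2 (2 ^ s) cols.length D (Fintype.card ι') : ℕ) : ℝ) *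
      V2 D r' del zf sys bet (sg F S) := by
  rw [(ts2_lst F D μ k I hd' del zf sys bet hT2).violE F S, card_T2 F]
  congr 1
  rw [V2]
  simp only [expect_prod (A := (Fin 3 → Fin cols.length → K) × K),
    expect_prod (A := Fin 3 → Fin cols.length → K), add_zero]
  rfl

include hd' hT2 in
theorem quad2 : (quadT S (ts2 (2 ^ s) P D k μ cols I dirs') : ℝ) =
    ((μ * nT2 (2 ^ s) cols.length D (Fintype.card ι') : ℕ) : ℝ) *
      Q2 D r' del zf sys bet (sg F S) := by
  rw [(ts2_lst F D μ k I hd' del zf sys bet hT2).quadE F S, card_T2 F]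
  congr 1
  rw [Q2]
  simp only [expect_prod (A := (Fin 3 → Fin cols.length → K) × K),
    expect_prod (A := Fin 3 → Fin cols.length → K)]

include hd' hT2 in
theorem w2 : wT (ts2 (2 ^ s) P D k μ cols I dirs') =
    (μ * nT2 (2 ^ s) cols.length D (Fintype.card ι')) *
      (2 * (2 ^ s - 1) * (2 * (2 ^ s - 1) - 1)) := by
  rw [(ts2_lst F D μ k I hd' del zf sys bet hT2).wE F, card_T2 F, card_J1 F]

end T2

/-! ### T3 -/

section T3

variable (b : Fin 3)
    (hE : ∀ γ : K, (cE F (cstE γ (cF b) : Comp (Fin n) → K) : ℕ) =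
      F.e γ * (2 ^ s) ^ ((b : ℕ) + 1))
    (hs : ∀ y x : Fin 3 → Fin n → K, (yE F (sh b y x) : ℕ) =
      shN (2 ^ s) n b (yE F y) (yE F x))

include F in
theorem card_T3 : Fintype.card (((Fin 3 → Fin n → K) × (Fin 3 → Fin n → K) × K) ×
    RSeed ι K (Fin n) D × RSeed ι K (Fin n) D) = nT3 (2 ^ s) n D (Fintype.card ι) := by
  rw [Fintype.card_prod, Fintype.card_prod, Fintype.card_prod, Fintype.card_prod, card_RSeed F,
    card_Y F, card_K F, nT3]
  ring

include hd hE hs in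
theorem viol3 : (violT S (ts3 (2 ^ s) P D n b μ dirs) : ℝ) =
    ((μ * nT3 (2 ^ s) n D (Fintype.card ι) : ℕ) : ℝ) * V3 D r b (sg F S) := by
  rw [(ts3_lst F hd D μ b hE hs).violE F S, card_T3 F]
  congr 1
  rw [V3]
  simp only [expect_prod (A := (Fin 3 → Fin n → K) × (Fin 3 → Fin n → K) × K),
    expect_prod (A := Fin 3 → Fin n → K), expect_prod (A := RSeed ι K (Fin n) D), add_zero]
  refine expect_congr rfl fun y _ => expect_congr rfl fun x _ => expect_congr rfl fun γ _ =>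
    expect_congr rfl fun ω _ => expect_congr rfl fun ω' _ => ?_
  rw [Fintype.sum_sum_type]
  rfl

include hd hE hs in
theorem quad3 : (quadT S (ts3 (2 ^ s) P D n b μ dirs) : ℝ) =
    ((μ * nT3 (2 ^ s) n D (Fintype.card ι) : ℕ) : ℝ) * Q3 D r b (sg F S) := by
  rw [(ts3_lst F hd D μ b hE hs).quadE F S, card_T3 F]
  congr 1
  rw [Q3]
  simp only [expect_prod (A := (Fin 3 → Fin n → K) × (Fin 3 → Fin n → K) × K),
    expect_prod (A := Fin 3 → Fin n → K), expect_prod (A := RSeed ι K (Fin n) D)]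

include hd hE hs in
theorem w3 : wT (ts3 (2 ^ s) P D n b μ dirs) =
    (μ * nT3 (2 ^ s) n D (Fintype.card ι)) * (4 * (2 ^ s - 1) * (4 * (2 ^ s - 1) - 1)) := by
  rw [(ts3_lst F hd D μ b hE hs).wE F, card_T3 F, card_J2 F]

end T3

/-! ### T4 -/

section T4

variable (hE0 : ∀ γ : K, (cE F (cstE γ cOne : Comp (Fin n) → K) : ℕ) = F.e γ)
  (φ : K →+ ZMod 2) (hφ : ∀ γ, (φ γ).val = (F.e γ : ℕ) % 2)

include hd hE0 hφ in
theorem ts4_lst : LstT (ts4 (2 ^ s) P D n μ dirs) (xN F) μ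
      (fun p : ((Fin 3 → Fin n → K) × K) × RSeed ι K (Fin n) D => φ p.1.2)
      (fun p => posR r p.1.1 (cstE p.1.2 cOne) p.2) :=
  tsγ_lst F hd D μ (cst := fun _ γ => cstE γ cOne) (cN := fun _ γ => γ) (fun _ γ => hE0 γ)
    (par := fun γ => φ γ) (pN := fun γ => γ % 2) hφ

include hd hE0 hφ in
theorem viol4 : (violT S (ts4 (2 ^ s) P D n μ dirs) : ℝ) =
    ((μ * nT2 (2 ^ s) n D (Fintype.card ι) : ℕ) : ℝ) * V4 D φ r (sg F S) := by
  rw [(ts4_lst F hd D μ hE0 φ hφ).violE F S, card_T2 F]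
  congr 1
  rw [V4]
  simp only [expect_prod (A := (Fin 3 → Fin n → K) × K),
    expect_prod (A := Fin 3 → Fin n → K)]
  rfl

include hd hE0 hφ in
theorem quad4 : (quadT S (ts4 (2 ^ s) P D n μ dirs) : ℝ) =
    ((μ * nT2 (2 ^ s) n D (Fintype.card ι) : ℕ) : ℝ) * Q4 D r (sg F S) := by
  rw [(ts4_lst F hd D μ hE0 φ hφ).quadE F S, card_T2 F]
  congr 1
  rw [Q4]
  simp only [expect_prod (A := (Fin 3 → Fin n → K) × K),
    expect_prod (A := Fin 3 → Fin n → K)]

include hd hE0 hφ in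
theorem w4 : wT (ts4 (2 ^ s) P D n μ dirs) =
    (μ * nT2 (2 ^ s) n D (Fintype.card ι)) * (2 * (2 ^ s - 1) * (2 * (2 ^ s - 1) - 1)) := by
  rw [(ts4_lst F hd D μ hE0 φ hφ).wE F, card_T2 F, card_J1 F]

end T4

end

end Vale.Agent.P318.TR
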