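import Vale.Agent.P318.TR.Lst
import Vale.Agent.P318.GC.Weighted
import Vale.Agent.P318.S.Mid

/-!
From lists of parity tests to families of tests over finite types.
-/

namespace Vale.Agent.P318.TR

open Finset Vale.Agent.P318.NPH Vale.Agent.P318.GC Vale.Agent.P318.S
open scoped BigOperators

/-- The normal form of a test. -/
def nf (t : Test) : ℕ × ℕ × Multiset ℕ := (t.1, t.2.1, (t.2.2 : Multiset ℕ))

section

variable {X Ω J : Type*} [Fintype Ω] [Fintype J]

/-- The normal form of the test with positions `pos`. -/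
def nfT (ix : X → ℕ) (μ : ℕ) (par : ZMod 2) (pos : J → X) : ℕ × ℕ × Multiset ℕ :=
  (μ, par.val, (univ : Finset J).val.map fun j => ix (pos j))

/-- `ts` lists the tests of the family. -/
def LstT (ts : List Test) (ix : X → ℕ) (μ : ℕ) (par : Ω → ZMod 2) (pos : Ω → J → X) : Prop :=
  Lst (ts.map nf) (fun ω => nfT ix μ (par ω) (pos ω))

/-- The table of a set of vertices. -/
def tab (ix : X → ℕ) (S : ℕ → Bool) (x : X) : ZMod 2 := if S (ix x) = true then 1 else 0

theorem ind_one : ind 1 = 1 := by rw [ind, if_neg (by decide)]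

theorem ind_zero : ind 0 = 0 := by rw [ind, if_pos rfl]

theorem ind_tab (ix : X → ℕ) (S : ℕ → Bool) (x : X) :
    ind (tab ix S x) = if S (ix x) = true then 1 else 0 := by
  rw [tab]
  split_ifs
  · exact ind_one
  · exact ind_zero

/-- The number of positions at which the table is one, from the multiset. -/
def cP (S : ℕ → Bool) (m : Multiset ℕ) : ℕ := m.countP fun p => S p = true

theorem cP_coe (S : ℕ → Bool) (l : List ℕ) : cP S (l : Multiset ℕ) = l.countP S := by
  rw [cP, Multiset.coe_countP]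
  congr 1
  funext p
  simp

theorem cP_map (S : ℕ → Bool) (ix : X → ℕ) (pos : J → X) :
    ((cP S ((univ : Finset J).val.map fun j => ix (pos j)) : ℕ) : ℝ) =
      ∑ j, ind (tab ix S (pos j)) := by
  simp only [ind_tab]
  rw [cP, Multiset.countP_map, ← Finset.filter_val, Finset.card_val, Finset.card_filter]
  push_cast
  rfl

theorem zmod2_cases (a : ZMod 2) : a = 0 ∨ a = 1 := by revert a; decide

theorem tab_eq_cast (ix : X → ℕ) (S : ℕ → Bool) (x : X) :
    tab ix S x = ((if S (ix x) = true then 1 else 0 : ℕ) : ZMod 2) := by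
  rw [tab]; split_ifs <;> simp

theorem cP_sum (S : ℕ → Bool) (ix : X → ℕ) (pos : J → X) :
    ((cP S ((univ : Finset J).val.map fun j => ix (pos j)) : ℕ) : ZMod 2) =
      ∑ j, tab ix S (pos j) := by
  simp only [tab_eq_cast]
  rw [cP, Multiset.countP_map, ← Finset.filter_val, Finset.card_val, Finset.card_filter]
  push_cast
  rfl

theorem viol_eq (S : ℕ → Bool) (ix : X → ℕ) (pos : J → X) (par : ZMod 2) :
    (((if (cP S ((univ : Finset J).val.map fun j => ix (pos j)) + par.val) % 2 = 1 then 1 else 0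
      : ℕ)) : ℝ) = ind (∑ j, tab ix S (pos j) + par) := by
  rw [← cP_sum S ix pos]
  generalize cP S ((univ : Finset J).val.map fun j => ix (pos j)) = n
  have h1 : ((n : ℕ) : ZMod 2) + par = ((n + par.val : ℕ) : ZMod 2) := by
    push_cast
    rw [ZMod.natCast_val, ZMod.cast_id]
  rw [h1, ind]
  rcases Nat.mod_two_eq_zero_or_one (n + par.val) with h | h
  · have h2 : ((n + par.val : ℕ) : ZMod 2) = 0 := by
      rw [ZMod.natCast_eq_zero_iff]
      exact Nat.dvd_of_mod_eq_zero h
    rw [if_pos h2, if_neg (by omega)]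
    simp
  · have h2 : ((n + par.val : ℕ) : ZMod 2) ≠ 0 := by
      rw [Ne, ZMod.natCast_eq_zero_iff]
      omega
    rw [if_neg h2, if_pos h]
    simp

theorem wT_nf (ts : List Test) :
    wT ts = ((ts.map nf).map fun t => t.1 * (t.2.2.card * (t.2.2.card - 1))).sum := by
  rw [List.map_map, wT]
  rfl

theorem quadT_nf (S : ℕ → Bool) (ts : List Test) :
    quadT S ts = ((ts.map nf).map fun t => t.1 * (cP S t.2.2 * (t.2.2.card - cP S t.2.2))).sum := by
  rw [List.map_map, quadT]
  congr 1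
  refine List.map_congr_left fun t _ => ?_
  rw [Function.comp_apply, nf, cP_coe, Multiset.coe_card]

theorem violT_nf (S : ℕ → Bool) (ts : List Test) :
    violT S ts = ((ts.map nf).map fun t =>
      t.1 * (if (cP S t.2.2 + t.2.1) % 2 = 1 then 1 else 0)).sum := by
  rw [List.map_map, violT]
  congr 1
  refine List.map_congr_left fun t _ => ?_
  rw [Function.comp_apply, nf, cP_coe]

variable {ts : List Test} {ix : X → ℕ} {μ : ℕ} {par : Ω → ZMod 2} {pos : Ω → J → X}

theorem LstT.wT (h : LstT ts ix μ par pos) :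
    GC.wT ts = μ * (Fintype.card Ω * (Fintype.card J * (Fintype.card J - 1))) := by
  rw [wT_nf, Lst.sum_map h]
  simp only [nfT, Multiset.card_map, Finset.card_val, Finset.card_univ, sum_const, smul_eq_mul]
  ring

theorem cP_le (S : ℕ → Bool) (m : Multiset ℕ) : cP S m ≤ m.card := Multiset.countP_le_card _ _

theorem LstT.quadT (h : LstT ts ix μ par pos) (S : ℕ → Bool) :
    (GC.quadT S ts : ℝ) = μ * ∑ ω, ((∑ j, ind (tab ix S (pos ω j))) *
      ((Fintype.card J : ℝ) - ∑ j, ind (tab ix S (pos ω j)))) := by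
  rw [quadT_nf, Lst.sum_map h, mul_sum]
  push_cast
  refine sum_congr rfl fun ω _ => ?_
  rw [nfT]
  dsimp only
  have h1 : cP S ((univ : Finset J).val.map fun j => ix (pos ω j)) ≤ Fintype.card J := by
    refine (cP_le _ _).trans (le_of_eq ?_)
    rw [Multiset.card_map]; rfl
  rw [← cP_map S ix (pos ω)]
  have h2 : Multiset.card ((univ : Finset J).val.map fun j => ix (pos ω j)) = Fintype.card J := by
    rw [Multiset.card_map]; rfl
  rw [h2, Nat.cast_sub h1]

theorem LstT.violT (h : LstT ts ix μ par pos) (S : ℕ → Bool) :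
    (GC.violT S ts : ℝ) = μ * ∑ ω, ind (∑ j, tab ix S (pos ω j) + par ω) := by
  rw [violT_nf, Lst.sum_map h, mul_sum]
  push_cast
  refine sum_congr rfl fun ω _ => ?_
  rw [nfT]
  dsimp only
  rw [← viol_eq S ix (pos ω) (par ω)]
  push_cast
  rfl

theorem LstT.ok {Q D : ℕ} (h : LstT ts ix μ par pos) (hμ : 1 ≤ μ) (he : Fintype.card J % 2 = 0)
    (h2 : 2 ≤ Fintype.card J) (hD : Fintype.card J ≤ D)
    (hD' : D ≤ Fintype.card J * (Fintype.card J - 1)) (hix : ∀ x, ix x < Q) :
    ∀ t ∈ ts, OkT Q D t := by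
  intro t ht
  have h1 : nf t ∈ ts.map nf := List.mem_map_of_mem ht
  rw [Lst.mem_iff h] at h1
  obtain ⟨ω, hω⟩ := h1
  rw [nf, nfT, Prod.mk.injEq, Prod.mk.injEq] at hω
  obtain ⟨e1, e2, e3⟩ := hω
  have hlen : t.2.2.length = Fintype.card J := by
    have := congrArg Multiset.card e3
    rw [Multiset.card_map, Multiset.coe_card] at this
    rw [← this]; rfl
  refine ⟨by omega, ?_, by omega, by omega, by omega, by rw [hlen]; exact hD', ?_⟩
  · rw [← e2]
    have := ZMod.val_lt (par ω)
    omega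
  · intro p hp
    have : p ∈ (t.2.2 : Multiset ℕ) := hp
    rw [← e3, Multiset.mem_map] at this
    obtain ⟨j, _, rfl⟩ := this
    exact hix _

theorem wT_append (ts ts' : List Test) : GC.wT (ts ++ ts') = GC.wT ts + GC.wT ts' := by
  simp [GC.wT]

theorem quadT_append (S : ℕ → Bool) (ts ts' : List Test) :
    GC.quadT S (ts ++ ts') = GC.quadT S ts + GC.quadT S ts' := by
  simp [GC.quadT]

theorem violT_append (S : ℕ → Bool) (ts ts' : List Test) :
    GC.violT S (ts ++ ts') = GC.violT S ts + GC.violT S ts' := by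
  simp [GC.violT]

end

/-! ### Balance -/

section

variable {X : Type*} [Fintype X] {Q : ℕ}

theorem sgn_eq (a : ZMod 2) : sgn a = 1 - 2 * ind a := by
  rw [sgn, ind]
  split_ifs <;> norm_num

theorem cntN_tab (ix : X ≃ Fin Q) (S : ℕ → Bool) :
    (cntN S 0 Q : ℝ) = ∑ x, ind (tab (fun x => (ix x : ℕ)) S x) := by
  simp only [ind_tab]
  rw [cntN]
  push_cast
  simp only [zero_add]
  rw [← Fin.sum_univ_eq_sum_range (fun i => if S i = true then (1 : ℝ) else 0)]
  exact (Equiv.sum_comp ix (fun i : Fin Q => if S i = true then (1 : ℝ) else 0)).symm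

/-- `n₁ n₀` from the mean of the signs. -/
theorem n1_n0 (ix : X ≃ Fin Q) (hQ : 1 ≤ Q) (S : ℕ → Bool) :
    (cntN S 0 Q : ℝ) * (cntN (fun v => !S v) 0 Q : ℝ) =
      (Q : ℝ) ^ 2 * ((1 - (𝔼 x, sgn (tab (fun x => (ix x : ℕ)) S x)) ^ 2) / 4) := by
  have hQ0 : (Q : ℝ) ≠ 0 := by
    have : (1 : ℝ) ≤ Q := by exact_mod_cast hQ
    linarith
  have hcard : (Fintype.card X : ℝ) = Q := by
    rw [Fintype.card_congr ix, Fintype.card_fin]
  have h1 := cntN_tab ix S
  have h2 : (cntN S 0 Q : ℝ) + (cntN (fun v => !S v) 0 Q : ℝ) = Q := by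
    exact_mod_cast cntN_not S 0 Q
  have h3 : (𝔼 x, sgn (tab (fun x => (ix x : ℕ)) S x)) = 1 - 2 * (cntN S 0 Q : ℝ) / Q := by
    rw [Fintype.expect_eq_sum_div_card, h1, hcard]
    simp only [sgn_eq]
    rw [sum_sub_distrib, ← mul_sum, sum_const, card_univ, nsmul_eq_mul, hcard]
    field_simp
  have h4 : (cntN (fun v => !S v) 0 Q : ℝ) = Q - cntN S 0 Q := by linarith
  rw [h3, h4]
  field_simp
  ring

end

end Vale.Agent.P318.TR
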